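import Vale.Agent.P167.QE.Seq
import Vale.Agent.P167.H411.Rado
import Vale.Agent.P167.H411.End6
import Vale.Agent.P167.Final.Question

/-!
# P167, general `q`, END: `Final.Question q` from the inputs
-/

set_option autoImplicit false
set_option linter.unusedVariables false

namespace Vale.Agent.P167.QE

open MeasureTheory ProbabilityTheory Filter Topology Set
open Vale.Agent.P167.H411 (Expn)

/-- **The curve theorem** for configurations with positive weights, from the observable
(`I_closeW`), crossing numbers (`I_crossW`), no return (`I_finW`) and no fjords (`I_nfW`). -/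
theorem curveLimitW_of {κ : ℝ} (hκ : 0 < κ) {wt : Wt} (hwt : WPos wt)
    {O : (ℝ → ℝ) → ℝ → ℝ → ℝ} {c₀ c₁ c₂ : ℝ} (hE : Expn O κ c₀ c₁ c₂) (hclose : I_closeW wt O)
    (hcross : I_crossW wt) (hfin : I_finW wt) (hnf : I_nfW wt) : CurveLimitW κ wt :=
  curveLimitW hκ hwt Vale.Agent.P153.R2.R1.i_unif Vale.Agent.P153.R2.R1.i_uinj
    (s_seqW hκ hwt Vale.Agent.P153.R2.R1.i_uinj H411.i_rado6 hE hclose hcross hfin hnf)
    H411.s_intf H446.Exap.s_exap

/-- The weights of the random-cluster model. -/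
noncomputable def wq (q : ℝ) : Wt := fun _ p k S A => Final.weight q p k S A

theorem wq_pos {q : ℝ} (hq : 0 < q) : WPos (wq q) := by
  intro n p k S A
  have h1 : 0 < √q := Real.sqrt_pos.2 hq
  have h2 : 0 < Final.selfDual q := by unfold Final.selfDual; positivity
  have h3 : 0 < 1 - Final.selfDual q := by
    unfold Final.selfDual
    rw [sub_pos, div_lt_one (by positivity)]
    linarith
  unfold wq Final.weight
  positivity

theorem kappa_pos {q : ℝ} : 0 ≤ Final.kappa q :=
  div_nonneg (by positivity) (Real.arccos_nonneg _)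

theorem kappa_pos' {q : ℝ} (hq : 0 ≤ q) : 0 < Final.kappa q := by
  refine div_pos (by positivity) ?_
  rw [Real.arccos_pos]
  have := Real.sqrt_nonneg q
  linarith

theorem isSLE_of {Ω : Type} [MeasurableSpace Ω] {κ : ℝ} {P : Measure Ω} {γ : Ω → ℝ → ℂ}
    (h : Vale.Agent.P164.IsSLE κ P γ) : Final.IsSLE κ P γ := by
  obtain ⟨B, hB, h⟩ := h
  exact ⟨B, hB, h.mono fun ω hω => ⟨hω.cont, hω.start, hω.im_nonneg, hω.domain_eq⟩⟩

/-- `Final.Question q` from the curve theorem. -/
theorem question_of_curve {q : ℝ} (hq : 0 < q) (h : CurveLimitW (Final.kappa q) (wq q)) :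
    Final.Question q := by
  obtain ⟨Ω, mΩ, P, hP, γ, hγ, h⟩ := h
  refine ⟨Ω, mΩ, P, hP, γ, isSLE_of hγ, fun Φ => ?_⟩
  obtain ⟨h1, h2⟩ := h Φ
  refine ⟨h1, fun ψ hψ => ?_⟩
  obtain ⟨G, hG1, hG2, hG3⟩ := h2 ψ hψ
  refine ⟨G, ?_, fun F hF => hG2 F (Final.continuous_of hF), ?_⟩
  · obtain ⟨B, hB, hT⟩ := hγ
    filter_upwards [hG1, hT, hB.eval_zero_ae_eq_zero] with ω h1 h2 h3
    refine ⟨?_, h1⟩
    have h4 : γ ω 0 = 0 := by
      rw [h2.start]
      simp [h3]
    have h5 := h1.2 0 (by simp)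
    rw [h5]
    simp only [Set.Icc.coe_zero, zero_div, h4]
    exact hψ.2.2.2.2.1
  · intro δ N k p S hA
    obtain ⟨h3, h4⟩ := hG3 δ N k p S hA
    refine ⟨h3, fun η hη F hF => ?_⟩
    exact h4 η hη F (Final.continuous_of hF) hF.1 (fun x σ hσ hs => Final.invariant_of hF x σ hσ hs)

/-- **The question for the parameter `q`** from an observable with the expansion of `SLE_κ(q)`
(`Expn`) and the four inputs for the random-cluster measure. -/
theorem question_of {q : ℝ} (hq : 0 < q) {O : (ℝ → ℝ) → ℝ → ℝ → ℝ} {c₀ c₁ c₂ : ℝ}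
    (hE : Expn O (Final.kappa q) c₀ c₁ c₂) (hclose : I_closeW (wq q) O)
    (hcross : I_crossW (wq q)) (hfin : I_finW (wq q)) (hnf : I_nfW (wq q)) : Final.Question q :=
  question_of_curve hq (curveLimitW_of (kappa_pos' hq.le) (wq_pos hq) hE hclose hcross hfin hnf)

end Vale.Agent.P167.QE
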