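import Vale.Agent.P167.H411.Expand
import Vale.Agent.P167.H411.ObsG

/-!
# P167, general `q`: the boundary observable `((g_t(b) - W_t) / b)^e` and its expansion

For `0 < e < 1` it is the martingale of SLE with `κ = 4 / (1 - e)`; for the random-cluster model
`e = μ / π = 1 - 4 / κ`.
-/

set_option autoImplicit false

open Filter Topology Set

namespace Vale.Agent.P167.QE

open Vale.Agent.P167.H411 Vale.Agent.P153.BESS

open Classical in
/-- The boundary observable `((g_t(b) - W_t) / b)^e` of the chain driven by `W`. -/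
noncomputable def obsQ (e : ℝ) (W : ℝ → ℝ) (b t : ℝ) : ℝ :=
  if h : ∃ y, RSol W b t y then ((h.choose t - W t) / b) ^ e else 1

theorem obsQ_eq {e : ℝ} {W y : ℝ → ℝ} {b t : ℝ} (ht : 0 ≤ t) (hW : ContinuousOn W (Icc 0 t))
    (hy : RSol W b t y) : obsQ e W b t = ((y t - W t) / b) ^ e := by
  have h : ∃ y, RSol W b t y := ⟨y, hy⟩
  rw [obsQ, dif_pos h, rsol_unique ht hW h.choose_spec hy ⟨ht, le_rfl⟩]

theorem expand_pow {T R C5 B q w t L e : ℝ} (he0 : 0 < e) (he1 : e < 1) (hT : 0 ≤ T) (hR : 0 ≤ R)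
    (hq1 : |q| ≤ 1) (hC5 : 0 ≤ C5) (hw : |w| ≤ R) (ht : 0 ≤ t) (htT : t ≤ T)
    (hL : |L - (-w * q + (2 * t - w ^ 2 / 2) * q ^ 2)| ≤ C5 * |q| ^ 3)
    (hB : B = R + R ^ 2 / 2 + 2 * T + C5) (hBq : B * |q| ≤ 1) :
    |Real.exp (e * L) - 1 - (-e * w * q + e * (e - 1) / 2 * (w ^ 2 - 4 / (1 - e) * t) * q ^ 2)| ≤
      (C5 + B ^ 2 + B ^ 3) * |q| ^ 3 := by
  have hq0 : 0 ≤ |q| := abs_nonneg q
  have hq2 : q ^ 2 = |q| ^ 2 := (sq_abs q).symm
  have hq21 : |q| ^ 2 ≤ |q| := by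
    calc |q| ^ 2 = |q| * |q| := sq _
      _ ≤ |q| * 1 := mul_le_mul_of_nonneg_left hq1 hq0
      _ = |q| := mul_one _
  have hq32 : |q| ^ 3 ≤ |q| ^ 2 := by
    calc |q| ^ 3 = |q| ^ 2 * |q| := pow_succ _ _
      _ ≤ |q| ^ 2 * 1 := mul_le_mul_of_nonneg_left hq1 (by positivity)
      _ = |q| ^ 2 := mul_one _
  have hB0 : 0 ≤ B := by rw [hB]; positivity
  have hw2 : w ^ 2 ≤ R ^ 2 := by
    rw [← sq_abs w]; exact pow_le_pow_left₀ (abs_nonneg _) hw 2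
  have hmid : |(2 * t - w ^ 2 / 2)| ≤ R ^ 2 / 2 + 2 * T := by
    have := sq_nonneg w
    rw [abs_le]; constructor <;> linarith
  have h6 : |L - -(w * q)| ≤ (R ^ 2 / 2 + 2 * T + C5) * |q| ^ 2 := by
    have e : L - -(w * q) = (2 * t - w ^ 2 / 2) * q ^ 2 +
      (L - (-w * q + (2 * t - w ^ 2 / 2) * q ^ 2)) := by ring
    rw [e]
    refine (abs_add_le _ _).trans ?_
    rw [abs_mul, abs_of_nonneg (sq_nonneg q), hq2]
    rw [hq2] at hL
    have h7 : |(2 * t - w ^ 2 / 2)| * |q| ^ 2 ≤ (R ^ 2 / 2 + 2 * T) * |q| ^ 2 := by gcongr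
    have h8 : C5 * |q| ^ 3 ≤ C5 * |q| ^ 2 := by gcongr
    linarith
  have hwq : |w * q| ≤ R * |q| := by rw [abs_mul]; gcongr
  have hR2 : 0 ≤ R ^ 2 := sq_nonneg R
  have hwB : |w * q| ≤ B * |q| :=
    hwq.trans (mul_le_mul_of_nonneg_right (by rw [hB]; linarith) hq0)
  have hLB : |L| ≤ B * |q| := by
    have e : L = -(w * q) + (L - -(w * q)) := by ring
    have h8 : (R ^ 2 / 2 + 2 * T + C5) * |q| ^ 2 ≤ (R ^ 2 / 2 + 2 * T + C5) * |q| :=
      mul_le_mul_of_nonneg_left hq21 (by positivity)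
    have := abs_add_le (-(w * q)) (L - -(w * q))
    rw [← e, abs_neg] at this
    rw [hB]
    linarith
  have h6B : |L - -(w * q)| ≤ B * |q| ^ 2 :=
    h6.trans (mul_le_mul_of_nonneg_right (by rw [hB]; linarith) (by positivity))
  have h7 := sq_sub_aux (r := 0) (s := 0) h6B hLB (by rw [abs_neg]; exact hwB)
  rw [neg_sq] at h7
  have hx : |e * L| ≤ B * |q| := by
    rw [abs_mul, abs_of_pos he0]
    calc e * |L| ≤ 1 * |L| := mul_le_mul_of_nonneg_right he1.le (abs_nonneg _)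
      _ = |L| := one_mul _
      _ ≤ _ := hLB
  have h8 := exp_aux hx hBq
  have he2 : e ^ 2 ≤ 1 := by nlinarith
  have hne : 1 - e ≠ 0 := by linarith
  have efin : Real.exp (e * L) - 1 -
      (-e * w * q + e * (e - 1) / 2 * (w ^ 2 - 4 / (1 - e) * t) * q ^ 2) =
      e * (L - (-w * q + (2 * t - w ^ 2 / 2) * q ^ 2)) + e ^ 2 * ((L ^ 2 - (w * q) ^ 2) / 2) +
        (Real.exp (e * L) - (1 + e * L + (e * L) ^ 2 / 2)) := by
    have e1 : e * (e - 1) / 2 * (w ^ 2 - 4 / (1 - e) * t) =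
        e * (e - 1) / 2 * w ^ 2 + 2 * e * t := by
      field_simp
      ring
    rw [e1]
    ring
  rw [efin]
  have c1 := abs_add_three (e * (L - (-w * q + (2 * t - w ^ 2 / 2) * q ^ 2)))
    (e ^ 2 * ((L ^ 2 - (w * q) ^ 2) / 2)) (Real.exp (e * L) - (1 + e * L + (e * L) ^ 2 / 2))
  have c2 : |e * (L - (-w * q + (2 * t - w ^ 2 / 2) * q ^ 2))| ≤ C5 * |q| ^ 3 := by
    rw [abs_mul, abs_of_pos he0]
    calc e * _ ≤ 1 * (C5 * |q| ^ 3) := mul_le_mul he1.le hL (abs_nonneg _) zero_le_one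
      _ = _ := one_mul _
  have c3 : |e ^ 2 * ((L ^ 2 - (w * q) ^ 2) / 2)| ≤ B ^ 2 * |q| ^ 3 := by
    have e' : B * |q| ^ 2 * (2 * (B * |q|)) = 2 * (B ^ 2 * |q| ^ 3) := by ring
    rw [e'] at h7
    rw [abs_mul, abs_of_nonneg (sq_nonneg e), abs_div, abs_two]
    calc e ^ 2 * (|L ^ 2 - (w * q) ^ 2| / 2) ≤ 1 * (B ^ 2 * |q| ^ 3) :=
          mul_le_mul he2 (by linarith) (by positivity) zero_le_one
      _ = _ := one_mul _
  have e3 : (B * |q|) ^ 3 = B ^ 3 * |q| ^ 3 := by ring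
  rw [e3] at h8
  calc _ ≤ C5 * |q| ^ 3 + B ^ 2 * |q| ^ 3 + B ^ 3 * |q| ^ 3 := by linarith
    _ = _ := by ring

/-- **Expansion of the boundary observable.** -/
theorem obsQ_expansion {e T R : ℝ} (he0 : 0 < e) (he1 : e < 1) (hT : 0 ≤ T) (hR : 0 ≤ R) :
    ∃ C b₀ : ℝ, 0 ≤ C ∧ 0 < b₀ ∧
    ∀ (W : ℝ → ℝ) (b t : ℝ), 0 ≤ t → t ≤ T → ContinuousOn W (Icc 0 t) →
      (∀ s ∈ Icc 0 t, |W s| ≤ R) → b₀ ≤ |b| →
      (∃ y, RSol W b t y) ∧
      |obsQ e W b t - 1 - (-e * W t / b + e * (e - 1) / 2 * (W t ^ 2 - 4 / (1 - e) * t) / b ^ 2)| ≤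
        C / |b| ^ 3 := by
  obtain ⟨C1, hC1⟩ : ∃ C1, C1 = 4 * T * (4 * T + R) := ⟨_, rfl⟩
  obtain ⟨A, hA⟩ : ∃ A, A = R + 2 * T + C1 := ⟨_, rfl⟩
  obtain ⟨C5, hC5⟩ : ∃ C5, C5 = 0 + C1 + A * (2 * T + C1) + 2 * A ^ 3 := ⟨_, rfl⟩
  obtain ⟨B, hB⟩ : ∃ B, B = R + R ^ 2 / 2 + 2 * T + C5 := ⟨_, rfl⟩
  have hC10 : 0 ≤ C1 := by rw [hC1]; positivity
  have hA0 : 0 ≤ A := by rw [hA]; positivity
  have hC50 : 0 ≤ C5 := by rw [hC5]; positivity
  have hB0 : 0 ≤ B := by rw [hB]; positivity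
  refine ⟨C5 + B ^ 2 + B ^ 3, 1 + 4 * R + 16 * T + 2 * A + B, by positivity, by positivity, ?_⟩
  intro W b t ht htT hW hWR hb
  have hb1 : 1 ≤ |b| := by linarith
  have hb0 : 0 < |b| := by linarith
  have hbne : b ≠ 0 := abs_pos.1 hb0
  have h1 : 4 * R ≤ |b| := by linarith
  have h2 : 16 * t ≤ b ^ 2 := by
    rw [← sq_abs, sq]
    have h3 : |b| * 1 ≤ |b| * |b| := mul_le_mul_of_nonneg_left hb1 hb0.le
    linarith
  obtain ⟨y, hy⟩ := exists_rsol ht hW hWR hbne h1 h2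
  refine ⟨⟨y, hy⟩, ?_⟩
  rw [obsQ_eq ht hW hy]
  have hq : |b⁻¹| = |b|⁻¹ := abs_inv b
  have hq1 : |b⁻¹| ≤ 1 := by rw [hq]; exact inv_le_one_of_one_le₀ hb1
  have hsec := RSol.second ht hR hW hWR hbne h1 h2 hy
  have hfr : 4 * t / |b| ≤ 4 * T := by
    rw [div_le_iff₀ hb0]
    have h3 : T * 1 ≤ T * |b| := mul_le_mul_of_nonneg_left hb1 hT
    linarith
  have hfr0 : 0 ≤ 4 * t / |b| := by positivity
  have he1' : |y t - b - 2 * t / b| ≤ C1 * |b⁻¹| ^ 2 := by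
    refine hsec.trans ?_
    rw [hq, inv_pow, div_eq_mul_inv]
    apply mul_le_mul_of_nonneg_right _ (by positivity)
    rw [hC1]
    exact mul_le_mul (by linarith) (by linarith) (by positivity) (by positivity)
  have hAq : A * |b⁻¹| ≤ 1 / 2 := by
    rw [hq, ← div_eq_mul_inv, div_le_iff₀ hb0]
    linarith
  have hBq : B * |b⁻¹| ≤ 1 := by
    rw [hq, ← div_eq_mul_inv, div_le_iff₀ hb0]
    linarith
  have key := expand_log (v := (y t - W t) / b - 1) (e2 := 0) hT hR hq1 hC10 le_rfl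
    (hWR t ⟨ht, le_rfl⟩) ht htT he1' (by field_simp; ring)
    (by rw [abs_zero, zero_mul]) hA hAq
  rw [← hC5] at key
  have e2 : 1 + ((y t - W t) / b - 1) = (y t - W t) / b := by ring
  rw [e2] at key
  have key' : |Real.log ((y t - W t) / b) -
      (-W t * b⁻¹ + (2 * t - W t ^ 2 / 2) * b⁻¹ ^ 2)| ≤ C5 * |b⁻¹| ^ 3 := by
    refine le_trans (le_of_eq ?_) key
    rw [← abs_neg]
    congr 1
    ring
  have hpos : 0 < (y t - W t) / b := by
    have h3 := key'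
    by_contra hcon
    have hv : |(y t - W t) / b - 1| ≤ A * |b⁻¹| := by
      have e3 : (y t - W t) / b - 1 = -W t * b⁻¹ + 2 * t * b⁻¹ ^ 2 +
          (y t - b - 2 * t / b) * b⁻¹ := by
        field_simp
        ring
      rw [e3]
      refine (abs_add_three _ _ _).trans ?_
      have a1 : |-W t * b⁻¹| ≤ R * |b⁻¹| := by
        rw [abs_mul, abs_neg]
        exact mul_le_mul_of_nonneg_right (hWR t ⟨ht, le_rfl⟩) (abs_nonneg _)
      have a0 : |b⁻¹| ^ 2 ≤ |b⁻¹| := by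
        calc |b⁻¹| ^ 2 = |b⁻¹| * |b⁻¹| := sq _
          _ ≤ |b⁻¹| * 1 := mul_le_mul_of_nonneg_left hq1 (abs_nonneg _)
          _ = _ := mul_one _
      have a2 : |2 * t * b⁻¹ ^ 2| ≤ 2 * T * |b⁻¹| := by
        rw [abs_mul, abs_mul, abs_two, abs_of_nonneg ht, abs_pow]
        exact mul_le_mul (by linarith) a0 (by positivity) (by positivity)
      have a3 : |(y t - b - 2 * t / b) * b⁻¹| ≤ C1 * |b⁻¹| := by
        rw [abs_mul]
        refine mul_le_mul_of_nonneg_right (he1'.trans ?_) (abs_nonneg _)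
        calc C1 * |b⁻¹| ^ 2 ≤ C1 * 1 :=
              mul_le_mul_of_nonneg_left (a0.trans hq1) hC10
          _ = C1 := mul_one _
      rw [hA]
      linarith
    have := (abs_le.1 (hv.trans hAq)).1
    linarith [not_lt.1 hcon]
  have key2 := expand_pow he0 he1 hT hR hq1 hC50 (hWR t ⟨ht, le_rfl⟩) ht htT key' hB hBq
  rw [Real.rpow_def_of_pos hpos, mul_comm (Real.log _) e]
  refine le_trans (le_of_eq ?_) (key2.trans (le_of_eq ?_))
  · congr 2
    field_simp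
  · rw [hq, inv_pow, div_eq_mul_inv]

/-- `obsQ e` is the boundary observable of SLE with `κ = 4 / (1 - e)`. -/
theorem expn_obsQ {e : ℝ} (he0 : 0 < e) (he1 : e < 1) :
    Expn (obsQ e) (4 / (1 - e)) 1 (-e) (e * (e - 1) / 2) where
  h1 := by simpa using he0.ne'
  h2 := by
    have : 0 < e * (1 - e) := mul_pos he0 (by linarith)
    have h : e * (e - 1) / 2 < 0 := by linarith [mul_sub e e 1, mul_sub e 1 e]
    exact h.ne
  exp := by
    intro T R hT hR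
    obtain ⟨C, b₀, hC, hb₀, h⟩ := obsQ_expansion he0 he1 hT hR
    refine ⟨C, b₀, hC, hb₀, fun W b t ht htT hW hWR hb => ?_⟩
    have hb0 : 0 < b := lt_of_lt_of_le hb₀ hb
    have h1 := (h W b t ht htT hW hWR (by rwa [abs_of_pos hb0])).2
    rw [abs_of_pos hb0] at h1
    have e' : obsQ e W b t - (1 + -e * W t / b + e * (e - 1) / 2 *
        (W t ^ 2 - 4 / (1 - e) * t) / b ^ 2) = obsQ e W b t - 1 - (-e * W t / b +
          e * (e - 1) / 2 * (W t ^ 2 - 4 / (1 - e) * t) / b ^ 2) := by ring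
    rw [e']
    exact h1

end Vale.Agent.P167.QE
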