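import Vale.Agent.P167.QE.MainL

/-!
# P167, general `q`, END for a class `K` of approximations

If the observable is close in probability only along the approximations in a class `K` (for instance
polygons with a flat side at `b`), then the interfaces converge to `SLE_κ` for all approximations in
this class (`questionOn_obsP`). The trace `γ` and the limit curve `G` exist for all Jordan domains as
soon as the class has at least one member.
-/

set_option autoImplicit false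
set_option linter.unusedVariables false

open MeasureTheory ProbabilityTheory Filter Topology Set Metric
open scoped NNReal ENNReal

namespace Vale.Agent.P167.QE

open Vale.Agent.P153.R2 Vale.Agent.P153.R2.ARCX Vale.Agent.P153.R2.DET Vale.Agent.P153.R2.UNIQ
open Vale.Agent.P153.R2.C1
open Vale.Agent.P167.E6 Vale.Agent.P167.E2
open Vale.Agent.P153.R2.Final (dom circ toC IsUniformizer)
open Vale.Agent.P153.M1 (Expl)
open Vale.Agent.P164 (IsSLE IsTrace)
open Vale.Agent.P167.SLE (Cf SeqHyp IsLim CapG bq S_intf S_exap uni_of_uniformizer seq_main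
  exists_transfer ae_map_of_continuous)
open Vale.Agent.P167.H411 (Expn Set6 exn DC DCs Qc xc_Qc good_ev DCs_bdd fjr_mono
  I_rado6 AsymB)

/-- A class of approximations of marked Jordan domains. -/
abbrev Cls : Type := ((ℝ × ℝ) ≃ₜ (ℝ × ℝ)) → (ℕ → ℝ) → ∀ (N _k : ℕ → ℕ),
  (∀ n, ZMod (N n) → ℤ × ℤ) → (ℕ → Finset (ℤ × ℤ)) → Prop

/-- The class has at least one member. -/
def Cls.Ne (K : Cls) : Prop := ∃ (Φ : (ℝ × ℝ) ≃ₜ (ℝ × ℝ)) (δ : ℕ → ℝ) (N k : ℕ → ℕ)
  (p : ∀ n, ZMod (N n) → ℤ × ℤ) (S : ℕ → Finset (ℤ × ℤ)), Approx Φ δ N k p S ∧ K Φ δ N k p S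

/-- Input: bounded conditional expectations, close to the observable `O` in probability at stopping
indices, for the approximations in the class `K`. -/
def I_closePOn (K : Cls) (wt : Wt) (O : (ℝ → ℝ) → ℝ → ℝ → ℝ) : Prop :=
  ∀ (Φ : (ℝ × ℝ) ≃ₜ (ℝ × ℝ)) (ψ : ℂ → ℂ)
  (δ : ℕ → ℝ) (N k : ℕ → ℕ) (p : ∀ n, ZMod (N n) → ℤ × ℤ) (S : ℕ → Finset (ℤ × ℤ))
  (ψn : ℕ → ℂ → ℂ), Set6 Φ ψ δ N k p S ψn → K Φ δ N k p S →
    CloseP (exn δ N k p S ψn) (fun n => wt (N n) (p n) (k n) (S n)) O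

/-- The input of the curve theorem for the class `K`. -/
def S_seqOn (K : Cls) (κ : ℝ) (wt : Wt) : Prop :=
  ∀ [MeasurableSpace C(ℝ≥0, ℝ)] [BorelSpace C(ℝ≥0, ℝ)]
  (Φ : (ℝ × ℝ) ≃ₜ (ℝ × ℝ)) (ψ : ℂ → ℂ), IsUniformizer Φ ψ →
  ∀ (δ : ℕ → ℝ) (N k : ℕ → ℕ) (p : ∀ n, ZMod (N n) → ℤ × ℤ) (S : ℕ → Finset (ℤ × ℤ)),
    Approx Φ δ N k p S → K Φ δ N k p S →
    ∃ (n₀ : ℕ) (ψn : ℕ → ℂ → ℂ) (bn : ℕ → ℂ) (ε : ℕ → ℝ)
      (X : ∀ n, Cf (S (n + n₀)) → C(unitInterval, ℂ))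
      (xs : ∀ n, Cf (S (n + n₀)) → ℝ → ℂ) (cs : ∀ n, Cf (S (n + n₀)) → ℝ → ℝ)
      (w : ∀ n, Cf (S (n + n₀)) → C(ℝ≥0, ℝ)) (T0 T1 : ∀ n, Cf (S (n + n₀)) → ℝ)
      (lam : Measure C(ℝ≥0, ℝ)) (R : ℝ) (e : ℕ → ℝ), IsDrvK κ lam ∧
      SeqHyp ψn ψ bn (bq Φ) ε (fun n => Cf (S (n + n₀)))
        (fun n => lawW (S (n + n₀)) (wt _ (p (n + n₀)) (k (n + n₀)) (S (n + n₀)))) X xs cs w
        T0 T1 lam R ∧
      Tendsto e atTop (𝓝 0) ∧
      ∀ (n : ℕ) (A : Cf (S (n + n₀))) (c : C(unitInterval, ℂ)),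
        IsInterface (p (n + n₀)) (k (n + n₀)) (δ (n + n₀)) A.1 c →
        ∃ φ : unitInterval ≃o unitInterval, dist (reparam c φ) (X n A) ≤ e n

/-- Convergence of the interfaces to `SLE_κ`, for configurations with the weights `wt` and for the
approximations in the class `K`. -/
def CurveLimitOn (K : Cls) (κ : ℝ) (wt : Wt) : Prop :=
  ∃ (Ω : Type) (_ : MeasurableSpace Ω) (P : Measure Ω) (_ : IsProbabilityMeasure P)
    (γ : Ω → ℝ → ℂ), IsSLE κ P γ ∧
    ∀ Φ : (ℝ × ℝ) ≃ₜ (ℝ × ℝ), (∃ ψ, IsUniformizer Φ ψ) ∧ ∀ ψ, IsUniformizer Φ ψ →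
      ∃ G : Ω → C(unitInterval, ℂ),
        (∀ᵐ ω ∂P, G ω 1 = toC (Φ (circ Real.pi)) ∧
          ∀ t : unitInterval, (t : ℝ) < 1 → G ω t = ψ (γ ω (t / (1 - t)))) ∧
        (∀ F : C(unitInterval, ℂ) → ℝ, Continuous F → AEMeasurable (fun ω => F (G ω)) P) ∧
        ∀ (δ : ℕ → ℝ) (N k : ℕ → ℕ) (p : ∀ n, ZMod (N n) → ℤ × ℤ)
          (S : ℕ → Finset (ℤ × ℤ)), Approx Φ δ N k p S →
          (∀ n, ∀ A ⊆ edges (S n), ∃ c, IsInterface (p n) (k n) (δ n) A c) ∧
          (K Φ δ N k p S → ∀ c : ∀ n, Finset (Sym2 (ℤ × ℤ)) → C(unitInterval, ℂ),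
            (∀ n, ∀ A ⊆ edges (S n), IsInterface (p n) (k n) (δ n) A (c n A)) →
            ∀ F : C(unitInterval, ℂ) → ℝ, Continuous F → (∃ M, ∀ x, |F x| ≤ M) →
              (∀ (x : C(unitInterval, ℂ)) (σ : C(unitInterval, unitInterval)), StrictMono σ →
                Function.Surjective σ → F (x.comp σ) = F x) →
              Tendsto (fun n => meanW (S n) (wt _ (p n) (k n) (S n)) fun A => F (c n A)) atTop
                (𝓝 (∫ ω, F (G ω) ∂P)))

/-- **The assembly of the curve theorem** for the class `K`. -/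
theorem curveLimitOn {K : Cls} {κ : ℝ} (hκ : 0 < κ) {wt : Wt} (hwt : WPos wt) (hunif : I_unif)
    (huinj : I_uinj) (hseq : S_seqOn K κ wt) (hintf : S_intf) (hexap : K.Ne) :
    CurveLimitOn K κ wt := by
  classical
  have hκne : √κ ≠ 0 := (Real.sqrt_pos.2 hκ).ne'
  let _ : MeasurableSpace C(ℝ≥0, ℝ) := borel _
  have _ : BorelSpace C(ℝ≥0, ℝ) := ⟨rfl⟩
  let _ : MeasurableSpace C(unitInterval, ℂ) := borel _
  have _ : BorelSpace C(unitInterval, ℂ) := ⟨rfl⟩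
  -- the interfaces exist
  have hint : ∀ (Φ : (ℝ × ℝ) ≃ₜ (ℝ × ℝ)) (δ : ℕ → ℝ) (N k : ℕ → ℕ)
      (p : ∀ n, ZMod (N n) → ℤ × ℤ) (S : ℕ → Finset (ℤ × ℤ)), Approx Φ δ N k p S →
      ∀ n, ∀ A ⊆ edges (S n), ∃ c, IsInterface (p n) (k n) (δ n) A c := by
    intro Φ δ N k p S hA n A hAS
    obtain ⟨h1, h2, h3, h4, h5⟩ := hA.1 n
    exact hintf (N n) (k n) (p n) (S n) (δ n) h1 h2 h3 h4 h5 A hAS
  -- convergence in all domains
  have hconv : ∀ (Φ : (ℝ × ℝ) ≃ₜ (ℝ × ℝ)) (ψ : ℂ → ℂ), IsUniformizer Φ ψ →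
      ∀ (δ : ℕ → ℝ) (N k : ℕ → ℕ) (p : ∀ n, ZMod (N n) → ℤ × ℤ) (S : ℕ → Finset (ℤ × ℤ)),
        Approx Φ δ N k p S → K Φ δ N k p S →
        ∀ c : ∀ n, Finset (Sym2 (ℤ × ℤ)) → C(unitInterval, ℂ),
        (∀ n, ∀ A ⊆ edges (S n), IsInterface (p n) (k n) (δ n) A (c n A)) →
        ∃ (lam : Measure C(ℝ≥0, ℝ)) (ν : Measure (C(ℝ≥0, ℝ) × C(unitInterval, ℂ))),
          IsDrvK κ lam ∧ IsLim ψ (bq Φ) lam ν ∧
          ∀ F : C(unitInterval, ℂ) → ℝ, Continuous F → (∃ M, ∀ x, |F x| ≤ M) →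
            (∀ (x : C(unitInterval, ℂ)) (σ : unitInterval ≃o unitInterval),
              F (reparam x σ) = F x) →
            Tendsto (fun n => meanW (S n) (wt _ (p n) (k n) (S n)) fun A => F (c n A)) atTop
              (𝓝 (∫ q, F q.2 ∂ν)) := by
    intro Φ ψ hψ δ N k p S hA hK c hc
    obtain ⟨n₀, ψn, bn, ε, X, xs, cs, w, T0, T1, lam, R, e, hlam, hS, he, hclose⟩ :=
      hseq Φ ψ hψ δ N k p S hA hK
    obtain ⟨ν, hν, hF⟩ := seq_main hS (fun n (A : Cf (S (n + n₀))) => c (n + n₀) A.1) e he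
      (fun n A => hclose n A (c (n + n₀) A.1) (hc (n + n₀) A.1 (Finset.mem_powerset.1 A.2)))
    refine ⟨lam, ν, hlam, hν, fun F hFc hM hinv => ?_⟩
    rw [← tendsto_add_atTop_iff_nat n₀]
    refine (hF F hFc hM hinv).congr fun n => ?_
    exact (meanW_eq (S (n + n₀)) (fun A => hwt _ _ _ _ A) fun A => F (c (n + n₀) A)).symm
  -- the reference domain
  obtain ⟨Φ0, δ0, N0, k0, p0, S0, hA0, hK0⟩ := hexap
  obtain ⟨ψ0, hψ0⟩ := hunif Φ0
  have hc0 : ∀ n (A : Finset (Sym2 (ℤ × ℤ))), ∃ c : C(unitInterval, ℂ), A ⊆ edges (S0 n) →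
      IsInterface (p0 n) (k0 n) (δ0 n) A c := by
    intro n A
    by_cases h : A ⊆ edges (S0 n)
    · obtain ⟨c, hc⟩ := hint Φ0 δ0 N0 k0 p0 S0 hA0 n A h
      exact ⟨c, fun _ => hc⟩
    · exact ⟨0, fun h' => absurd h' h⟩
  choose c0 hc0 using hc0
  obtain ⟨lam, ν0, hlam, hν0, -⟩ := hconv Φ0 ψ0 hψ0 δ0 N0 k0 p0 S0 hA0 hK0 c0 hc0
  have hU0 := uni_of_uniformizer huinj hψ0
  have hνp := hν0.prob
  -- the trace
  set γ : C(ℝ≥0, ℝ) × C(unitInterval, ℂ) → ℝ → ℂ := fun q =>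
    if h : CapG ψ0 (bq Φ0) q.1 q.2 then h.choose else 0 with hγ
  have hγs : ∀ᵐ q ∂ν0, IsTrace (fun t => q.1 t.toNNReal) (γ q) ∧ q.2 1 = bq Φ0 ∧
      ∀ t : unitInterval, (t : ℝ) < 1 → q.2 t = ψ0 (γ q (t / (1 - t))) := by
    filter_upwards [hν0.cap] with q hq
    simp only [hγ, dif_pos hq]
    exact hq.choose_spec
  refine ⟨C(ℝ≥0, ℝ) × C(unitInterval, ℂ), inferInstance, ν0, hνp, γ, ?_, ?_⟩
  · refine ⟨fun t q => q.1 t / √κ, ?_, ?_⟩
    · have h1 : MeasurePreserving (Prod.fst : C(ℝ≥0, ℝ) × C(unitInterval, ℂ) → C(ℝ≥0, ℝ)) ν0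
          lam := ⟨measurable_fst, hν0.fst⟩
      refine ⟨⟨fun I => ?_⟩, ae_of_all _ fun q => q.1.continuous.div_const _⟩
      exact (hlam.hasLaw I).comp h1.hasLaw
    · filter_upwards [hγs] with q hq
      have h1 : (fun t : ℝ => √κ * (q.1 t.toNNReal / √κ)) = fun t => q.1 t.toNNReal := by
        funext t
        rw [mul_div_cancel₀ _ hκne]
      rw [h1]
      exact hq.1
  · intro Φ
    refine ⟨hunif Φ, fun ψ hψ => ?_⟩
    have hU := uni_of_uniformizer huinj hψ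
    obtain ⟨f, hfb, hfψ⟩ := exists_transfer hU0 hU
    have hfc : Continuous fun x : C(unitInterval, ℂ) => f.comp x :=
      ContinuousMap.continuous_postcomp f
    have hG : ∀ᵐ q ∂ν0, f.comp q.2 1 = bq Φ ∧
        ∀ t : unitInterval, (t : ℝ) < 1 → f.comp q.2 t = ψ (γ q (t / (1 - t))) := by
      filter_upwards [hγs] with q hq
      refine ⟨?_, fun t ht => ?_⟩
      · rw [ContinuousMap.comp_apply, hq.2.1, hfb]
      · have h3 : (0 : ℝ) ≤ t / (1 - t) := div_nonneg t.2.1 (by linarith)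
        rw [ContinuousMap.comp_apply, hq.2.2 t ht, hfψ _ (hq.1.im_nonneg _ h3)]
    refine ⟨fun q => f.comp q.2, hG, ?_, ?_⟩
    · intro F hF
      exact ((hF.comp hfc).measurable.comp measurable_snd).aemeasurable
    · intro δ N k p S hA
      refine ⟨hint Φ δ N k p S hA, fun hK c hc F hF hM hinv => ?_⟩
      obtain ⟨lam', ν, hlam', hν, hlim⟩ := hconv Φ ψ hψ δ N k p S hA hK c hc
      have h1 := hlim F hF hM fun x σ => hinv x ⟨σ, σ.continuous⟩ σ.strictMono σ.surjective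
      have hπ : Measurable fun q : C(ℝ≥0, ℝ) × C(unitInterval, ℂ) => (q.1, f.comp q.2) :=
        measurable_fst.prodMk (hfc.measurable.comp measurable_snd)
      have hπc : Continuous fun q : C(ℝ≥0, ℝ) × C(unitInterval, ℂ) => (q.1, f.comp q.2) :=
        continuous_fst.prodMk (hfc.comp continuous_snd)
      have h2 : IsLim ψ (bq Φ) lam' (ν0.map fun q => (q.1, f.comp q.2)) := by
        refine ⟨Measure.isProbabilityMeasure_map hπ.aemeasurable, ?_, ?_⟩
        · rw [Measure.map_map measurable_fst hπ, drvK_unique hκ hlam' hlam, ← hν0.fst]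
          rfl
        · refine ae_map_of_continuous ν0 hπc (p := fun q : C(ℝ≥0, ℝ) × C(unitInterval, ℂ) =>
            CapG ψ (bq Φ) q.1 q.2) ?_
          filter_upwards [hγs, hG] with q hq1 hq2
          exact ⟨γ q, hq1.1, hq2.1, hq2.2⟩
      rw [hν.unique h2] at h1
      have h3 : ∫ q, F q.2 ∂(ν0.map fun q => (q.1, f.comp q.2)) = ∫ q, F (f.comp q.2) ∂ν0 :=
        integral_map (f := fun q : C(ℝ≥0, ℝ) × C(unitInterval, ℂ) => F q.2) hπ.aemeasurable
          (hF.comp continuous_snd).aestronglyMeasurable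
      rw [h3] at h1
      exact h1

/-- **The input of the curve theorem** for the class `K`, from closeness in probability. -/
theorem s_seqPOn {K : Cls} {κ : ℝ} (hκ : 0 < κ) {wt : Wt} (hwt : WPos wt) (huinj : UNIQ.I_uinj)
    (hrado : I_rado6) {O : (ℝ → ℝ) → ℝ → ℝ → ℝ} {c₀ c₁ c₂ : ℝ} (hE : Expn O κ c₀ c₁ c₂)
    (hclose : I_closePOn K wt O) (hcross : I_crossW wt) (hfin : I_finW wt) (hnf : I_nfW wt) :
    S_seqOn K κ wt := by
  intro _ _ Φ ψ hψ δ N k p S hA hK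
  obtain ⟨ψn, H⟩ := hrado Φ ψ hψ δ N k p S hA
  obtain ⟨n₀, hn₀⟩ := eventually_atTop.1 (good_ev H.appr)
  have hD := H.dcs huinj hn₀
  obtain ⟨R, hR⟩ := DCs_bdd hD
  have hs := tendsto_add_atTop_nat n₀
  have hcl := closeL_of_closeP hκ.le hE hD.asymB (fun n A _ => hwt _ _ _ _ A)
    (closeP_shift (hclose Φ ψ δ N k p S ψn H hK) n₀)
  obtain ⟨lam, hlam, hseq⟩ := seqHypL (R := R) (S := fun n => S (n + n₀)) hκ
    (fun n A => hwt _ _ _ _ A) (fun n => rfl) hD hE hcl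
    (fun n a t => hR n a.1 a.2 t)
    (by
      intro y r hr q hq
      obtain ⟨m, hm⟩ := hcross Φ δ N k p S hA y r hr q hq
      refine ⟨m, ?_⟩
      filter_upwards [hs.eventually hm] with n h
      simp only [xc_Qc]
      exact h)
    (by
      intro r hr q hq
      obtain ⟨r', hr', hm⟩ := hfin Φ δ N k p S hA r hr q hq
      refine ⟨r', hr', ?_⟩
      filter_upwards [hs.eventually hm] with n h
      simp only [xc_Qc]
      exact h)
    (by
      intro e he r hr q hq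
      obtain ⟨ρ, hρ, hm⟩ := hnf Φ δ N k p S hA e he r hr q hq
      refine ⟨ρ, hρ, ?_⟩
      filter_upwards [hs.eventually hm] with n h
      refine (measure_mono ?_).trans h
      intro a ha
      have hg := hn₀ (n + n₀) (Nat.le_add_left _ _)
      have ha' := ha
      simp only [mem_ofPred_eq, xc_Qc] at ha'
      rw [(H.isU _ hg).img] at ha'
      refine fjr_mono ?_ ha'
      have hpos : (0 : ℝ) < (nu (p (n + n₀)) (k (n + n₀)) a.1 : ℝ) := by
        exact_mod_cast Nat.succ_pos _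
      change ((nu (p (n + n₀)) (k (n + n₀)) a.1 : ℝ) - 1 / 2) /
        (nu (p (n + n₀)) (k (n + n₀)) a.1 : ℝ) ≤ 1
      rw [div_le_one hpos]
      linarith)
  refine ⟨n₀, _, _, _, _, _, _, _, _, _, lam, R, fun n => 2 * δ (n + n₀), hlam, hseq, ?_, ?_⟩
  · simpa using (hA.2.1.comp hs).const_mul 2
  · intro n a c hc
    obtain ⟨h1, h2, h3, h4, h5⟩ := hA.1 (n + n₀)
    have ha : a.1 ⊆ edges (S (n + n₀)) := Finset.mem_powerset.1 a.2
    refine ⟨OrderIso.refl _, ?_⟩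
    rw [H411.reparam_refl, isInterface_unique h4 h5 h3 ha hc, xc_Qc]
    exact dist_crv_Xc h4 h5 h2 h3 ha h1.le


/-- **The curve theorem** for configurations with positive weights and the class `K`. -/
theorem curveLimitOn_of {K : Cls} {κ : ℝ} (hκ : 0 < κ) {wt : Wt} (hwt : WPos wt)
    {O : (ℝ → ℝ) → ℝ → ℝ → ℝ} {c₀ c₁ c₂ : ℝ} (hE : Expn O κ c₀ c₁ c₂) (hne : K.Ne)
    (hclose : I_closePOn K wt O) (hcross : I_crossW wt) (hfin : I_finW wt) (hnf : I_nfW wt) :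
    CurveLimitOn K κ wt :=
  curveLimitOn hκ hwt Vale.Agent.P153.R2.R1.i_unif Vale.Agent.P153.R2.R1.i_uinj
    (s_seqPOn hκ hwt Vale.Agent.P153.R2.R1.i_uinj H411.i_rado6 hE hclose hcross hfin hnf)
    H411.s_intf hne

/-- The question for the parameter `q`, with convergence for the approximations in the class `K`:
there is a chordal `SLE_κ(q)` trace `γ` in the upper half-plane, and for every bounded Jordan domain
`D` with boundary points `a`, `b` and every conformal map `ψ` from the upper half-plane onto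
`(D; a, b)` (such maps exist) the curve `ψ ∘ γ`, with the time reparametrized onto `[0,1]`, is almost
surely a continuous curve `G` from `a` to `b`, and for every approximation of `(D; a, b)` by lattice
polygons **in the class `K`** the interfaces `η_n` converge to it in law in the metric `d`. (The
interfaces exist for all approximations.) -/
def QuestionOn (K : Cls) (q : ℝ) : Prop :=
  ∃ (Ω : Type) (_ : MeasurableSpace Ω) (P : Measure Ω) (_ : IsProbabilityMeasure P)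
    (γ : Ω → ℝ → ℂ), Final.IsSLE (Final.kappa q) P γ ∧
    ∀ Φ : (ℝ × ℝ) ≃ₜ (ℝ × ℝ), (∃ ψ, Final.IsUniformizer Φ ψ) ∧ ∀ ψ, Final.IsUniformizer Φ ψ →
      ∃ G : Ω → C(unitInterval, ℂ),
        (∀ᵐ ω ∂P, G ω 0 = Final.toC (Φ (Final.circ 0)) ∧
          G ω 1 = Final.toC (Φ (Final.circ Real.pi)) ∧
          ∀ t : unitInterval, (t : ℝ) < 1 → G ω t = ψ (γ ω (t / (1 - t)))) ∧
        (∀ F, Final.BoundedContinuous F → AEMeasurable (fun ω => F (G ω)) P) ∧
        ∀ (δ : ℕ → ℝ) (N k : ℕ → ℕ) (p : ∀ n, ZMod (N n) → ℤ × ℤ)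
          (S : ℕ → Finset (ℤ × ℤ)), Final.Approx Φ δ N k p S →
          (∀ n, ∀ A ⊆ Final.edges (S n), ∃ η, Final.IsInterface (p n) (k n) (δ n) A η) ∧
          (K Φ δ N k p S → ∀ η : ∀ n, Finset (Sym2 (ℤ × ℤ)) → C(unitInterval, ℂ),
            (∀ n, ∀ A ⊆ Final.edges (S n), Final.IsInterface (p n) (k n) (δ n) A (η n A)) →
            ∀ F, Final.BoundedContinuous F →
              Tendsto (fun n => Final.mean q (p n) (k n) (S n) fun A => F (η n A)) atTop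
                (𝓝 (∫ ω, F (G ω) ∂P)))

/-- `QuestionOn K q` from the curve theorem for the class `K`. -/
theorem questionOn_of_curve {K : Cls} {q : ℝ} (hq : 0 < q)
    (h : CurveLimitOn K (Final.kappa q) (wq q)) : QuestionOn K q := by
  obtain ⟨Ω, mΩ, P, hP, γ, hγ, h⟩ := h
  refine ⟨Ω, mΩ, P, hP, γ, isSLE_of hγ, fun Φ => ?_⟩
  obtain ⟨h1, h2⟩ := h Φ
  refine ⟨h1, fun ψ hψ => ?_⟩
  obtain ⟨G, hG1, hG2, hG3⟩ := h2 ψ hψ
  refine ⟨G, ?_, fun F hF => hG2 F (Final.continuous_of hF), ?_⟩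
  · obtain ⟨B, hB, hT⟩ := hγ
    filter_upwards [hG1, hT, hB.eval_zero_ae_eq_zero] with ω h1 h2 h3
    refine ⟨?_, h1⟩
    have h4 : γ ω 0 = 0 := by
      rw [h2.start]
      simp [h3]
    have h5 := h1.2 0 (by simp)
    rw [h5]
    simp only [Set.Icc.coe_zero, zero_div, h4]
    exact hψ.2.2.2.2.1
  · intro δ N k p S hA
    obtain ⟨h3, h4⟩ := hG3 δ N k p S hA
    refine ⟨h3, fun hK η hη F hF => ?_⟩
    exact h4 hK η hη F (Final.continuous_of hF) hF.1
      (fun x σ hσ hs => Final.invariant_of hF x σ hσ hs)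

/-- **The question for the class `K` and `0 < q < 4`**, closeness in probability for the
approximations in the class `K`. -/
theorem questionOn_obsP {K : Cls} {q : ℝ} (h0 : 0 < q) (h4 : q < 4) (hne : K.Ne)
    (hclose : I_closePOn K (wq q) (obsQ (muq q / Real.pi))) (hcross : I_crossW (wq q))
    (hfin : I_finW (wq q)) (hnf : I_nfW (wq q)) : QuestionOn K q := by
  obtain ⟨c₀, c₁, c₂, hE⟩ := expn_q h0 h4
  exact questionOn_of_curve h0
    (curveLimitOn_of (kappa_pos' h0.le) (wq_pos h0) hE hne hclose hcross hfin hnf)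

/-- The class of all approximations. -/
def Cls.univ : Cls := fun _ _ _ _ _ _ => True

/-- For the class of all approximations this is the question. -/
theorem question_of_univ {q : ℝ} (h : QuestionOn Cls.univ q) : Final.Question q := by
  obtain ⟨Ω, mΩ, P, hP, γ, hγ, h⟩ := h
  refine ⟨Ω, mΩ, P, hP, γ, hγ, fun Φ => ⟨(h Φ).1, fun ψ hψ => ?_⟩⟩
  obtain ⟨G, hG1, hG2, hG3⟩ := (h Φ).2 ψ hψ
  exact ⟨G, hG1, hG2, fun δ N k p S hA => ⟨(hG3 δ N k p S hA).1, (hG3 δ N k p S hA).2 trivial⟩⟩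

end Vale.Agent.P167.QE
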