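import Vale.Agent.P167.QE.On

/-!
# P167, general `q`: the class of the approximations which are a staircase near the target
-/

set_option autoImplicit false

namespace Vale.Agent.P167.QE

open Filter Topology Set
open Vale.Agent.P167.E6 (dir face)

/-- The approximation is a staircase near the target: there is a radius `r > 0` such that, from some
index on, the steps of the polygon at distance at most `r / δ n` from the target vertex `p k` are
alternately `dir d` and `dir (d + 1)`, except that the two steps at `p k` itself (before and after it)
are both `dir d`. -/
def Stair (d : Fin 4) : Cls := fun _ δ N k p _ => ∃ r : ℝ, 0 < r ∧ ∀ᶠ n in atTop, ∀ m : ℕ,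
  (m : ℝ) * δ n ≤ r →
    p n ((k n : ZMod (N n)) + m + 1) =
      p n ((k n : ZMod (N n)) + m) + (if Even m then dir d else dir (d + 1)) ∧
    p n ((k n : ZMod (N n)) - m) =
      p n ((k n : ZMod (N n)) - m - 1) + (if Even m then dir d else dir (d + 1))

end Vale.Agent.P167.QE
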