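import Vale.Agent.P167.QE.FinW

/-!
# P167, general `q`, END: the hypothesis on the observable in the mean

`CloseL`: closeness in `L¹` at stopping indices (the weakest form). `CloseP`: bounded conditional
expectations, closeness in probability at stopping indices. `CloseW` and `CloseP` imply `CloseL`, and
`CloseL` is enough for the convergence of the drivers.
-/

set_option linter.unusedVariables false
set_option linter.unusedSectionVars false

namespace Vale.Agent.P167.QE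

open MeasureTheory ProbabilityTheory Filter Topology Set Complex
open Vale.Agent.P153.M1
open Vale.Agent.P167.H411
open scoped NNReal ENNReal

section

variable {A B : Type*}

/-- A stopping index before the last step and before the exit from `[0, T] × [-R, R]`. -/
def BefIx (X : Expl A B) (T R : ℝ) (κ : A → ℕ) : Prop :=
  X.StopIx κ ∧ ∀ h ∈ X.C, κ h < X.K h ∧ ∀ j < κ h, X.c h j ≤ T ∧ |X.V h j| ≤ R

/-- **Closeness in `L¹`**: for all large `b` and all `ε > 0` there are functions `φ n` of the outcome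
whose conditional expectations at stopping indices before the exit from `[0, T] × [-R, R]` are within
`ε` of the observable in `L¹`. -/
def CloseL (X : ℕ → Expl A B) (w : ℕ → A → ℝ) (O : (ℝ → ℝ) → ℝ → ℝ → ℝ) : Prop :=
  ∀ T R : ℝ, 0 ≤ T → 0 < R → ∃ b₁ : ℝ, ∀ b : ℝ, b₁ ≤ b → ∀ ε : ℝ, 0 < ε →
    ∃ φ : ℕ → A → ℝ, ∀ᶠ n in atTop, ∀ κ : A → ℕ, BefIx (X n) T R κ →
      ExW (X n).C (w n) (fun h => |cexW (X n) (w n) (φ n) h (κ h) -
        O ((X n).W h) b ((X n).c h (κ h))|) ≤ ε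

/-- **Closeness in probability**: the conditional expectations are bounded by `M`, and at every
stopping index before the exit from `[0, T] × [-R, R]` they are within `ε` of the observable with
probability at least `1 - ε`. -/
def CloseP (X : ℕ → Expl A B) (w : ℕ → A → ℝ) (O : (ℝ → ℝ) → ℝ → ℝ → ℝ) : Prop :=
  ∀ T R : ℝ, 0 ≤ T → 0 < R → ∃ b₁ : ℝ, ∀ b : ℝ, b₁ ≤ b → ∃ M : ℝ, ∀ ε : ℝ, 0 < ε →
    ∃ φ : ℕ → A → ℝ, ∀ᶠ n in atTop, ∀ κ : A → ℕ, BefIx (X n) T R κ →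
      (∀ h ∈ (X n).C, |cexW (X n) (w n) (φ n) h (κ h)| ≤ M) ∧
      ExW (X n).C (w n) ({h | ε < |cexW (X n) (w n) (φ n) h (κ h) -
        O ((X n).W h) b ((X n).c h (κ h))|}.indicator 1) ≤ ε

variable {X : ℕ → Expl A B} {w : ℕ → A → ℝ}

/-! ### Averages -/

theorem exW_add {C : Set A} (hf : C.Finite) (w f g : A → ℝ) :
    ExW C w (fun h => f h + g h) = ExW C w f + ExW C w g := by
  rw [exW_eq_sum hf, exW_eq_sum hf, exW_eq_sum hf, ← add_div, ← Finset.sum_add_distrib]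
  congr 1
  exact Finset.sum_congr rfl fun h _ => by ring

theorem exW_smul {C : Set A} (hf : C.Finite) (w f : A → ℝ) (c : ℝ) :
    ExW C w (fun h => c * f h) = c * ExW C w f := by
  rw [exW_eq_sum hf, exW_eq_sum hf, mul_div_assoc', Finset.mul_sum]
  congr 1
  exact Finset.sum_congr rfl fun h _ => by ring

theorem exW_mono {C : Set A} (hf : C.Finite) {w f g : A → ℝ}
    (hw : ∀ a ∈ C, 0 < w a) (h : ∀ a ∈ C, f a ≤ g a) : ExW C w f ≤ ExW C w g := by
  have hpos : 0 ≤ ∑ b ∈ hf.toFinset, w b :=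
    Finset.sum_nonneg (fun b hb => (hw b (hf.mem_toFinset.1 hb)).le)
  rw [exW_eq_sum hf, exW_eq_sum hf]
  refine div_le_div_of_nonneg_right (Finset.sum_le_sum fun a ha => ?_) hpos
  have ha' := hf.mem_toFinset.1 ha
  exact mul_le_mul_of_nonneg_left (h a ha') (hw a ha').le

theorem exW_const {C : Set A} (hf : C.Finite) (hn : C.Nonempty) {w : A → ℝ}
    (hw : ∀ a ∈ C, 0 < w a) (c : ℝ) : ExW C w (fun _ => c) = c := by
  have hpos : 0 < ∑ b ∈ hf.toFinset, w b :=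
    Finset.sum_pos (fun b hb => hw b (hf.mem_toFinset.1 hb))
      (by obtain ⟨a, ha⟩ := hn; exact ⟨a, hf.mem_toFinset.2 ha⟩)
  rw [exW_eq_sum hf, ← Finset.sum_mul, mul_comm, mul_div_assoc, div_self hpos.ne', mul_one]

theorem abs_exW_le' {C : Set A} (hf : C.Finite) {w : A → ℝ} (hw : ∀ a ∈ C, 0 < w a)
    (f : A → ℝ) : |ExW C w f| ≤ ExW C w fun h => |f h| := by
  have hpos : 0 ≤ ∑ b ∈ hf.toFinset, w b :=
    Finset.sum_nonneg (fun b hb => (hw b (hf.mem_toFinset.1 hb)).le)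
  rw [exW_eq_sum hf, exW_eq_sum hf, abs_div, abs_of_nonneg hpos]
  refine div_le_div_of_nonneg_right ?_ hpos
  refine (Finset.abs_sum_le_sum_abs _ _).trans (Finset.sum_le_sum fun a ha => ?_)
  rw [abs_mul, abs_of_pos (hw a (hf.mem_toFinset.1 ha))]

/-! ### The implications -/

theorem closeL_of_closeW {O : (ℝ → ℝ) → ℝ → ℝ → ℝ} (hX : AsymB X)
    (hw : ∀ n, ∀ a ∈ (X n).C, 0 < w n a) (hC : CloseW X w O) : CloseL X w O := by
  intro T R hT hR
  obtain ⟨b₁, h1⟩ := hC T R hT hR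
  refine ⟨b₁, fun b hb ε hε => ?_⟩
  obtain ⟨φ, hφ⟩ := h1 b hb ε hε
  refine ⟨φ, ?_⟩
  filter_upwards [hφ] with n hn κ hκ
  have hwf := hX.wf n
  refine (exW_mono hwf.fin (hw n) (g := fun _ => ε) fun h hh => ?_).trans
    (exW_const hwf.fin hwf.ne (hw n) ε).le
  exact hn h hh (κ h) (hκ.2 h hh).1 (hκ.2 h hh).2

/-- The observable is bounded before the exit. -/
theorem obs_bdd {O : (ℝ → ℝ) → ℝ → ℝ → ℝ} {v c₀ c₁ c₂ : ℝ} (hv : 0 ≤ v)
    (hE : Expn O v c₀ c₁ c₂) (hX : AsymB X) (T R : ℝ) :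
    ∃ b₁ : ℝ, ∀ b : ℝ, b₁ ≤ b → ∃ M : ℝ, ∀ᶠ n in atTop, ∀ κ : A → ℕ, BefIx (X n) T R κ →
      ∀ h ∈ (X n).C, |O ((X n).W h) b ((X n).c h (κ h))| ≤ M := by
  obtain ⟨C, hC0, hC⟩ := hX.ok.path_bd T R
  obtain ⟨C2, b₀, hC2, hb₀, hexp⟩ := hE.exp C C hC0.le hC0.le
  refine ⟨b₀, fun b hb => ⟨|c₀| + |c₁| * C / b + |c₂| * (C ^ 2 + v * C) / b ^ 2 + C2 / b ^ 3,
    Eventually.of_forall fun n κ hκ h hh => ?_⟩⟩
  have hb0 : 0 < b := lt_of_lt_of_le hb₀ hb
  obtain ⟨k1, k2⟩ := hκ.2 h hh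
  have hbef : (sysX X).Bef T R n ⟨h, hh⟩ (κ h) := by
    intro j hj
    obtain ⟨k3, k4⟩ := k2 j hj
    have hjK : j ≤ (X n).K h := by omega
    have e4 : (sysX X).τ n j ⟨h, hh⟩ = (X n).c h j := Expl.tt_le hjK
    have e5 : (sysX X).V n j ⟨h, hh⟩ = (X n).V h j := Expl.W_tt_le hjK
    rw [e4, e5]
    exact ⟨k3, k4⟩
  obtain ⟨hp, hτ⟩ := hC n ⟨h, hh⟩ (κ h) hbef
  have e1 : (sysX X).τ n (κ h) ⟨h, hh⟩ = (X n).c h (κ h) := Expl.tt_le k1.le
  rw [e1] at hτ hp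
  have hτ0 : 0 ≤ (X n).c h (κ h) := by
    have := (hX.wf n).tt_nonneg hh (κ h)
    rwa [Expl.tt_le k1.le] at this
  have h6 := hexp ((X n).W h) b ((X n).c h (κ h)) hτ0 hτ
    ((W_cont (X := X) n ⟨h, hh⟩).mono Icc_subset_Ici_self) (fun s hs => hp s hs.1 hs.2) hb
  have hW : |(X n).W h ((X n).c h (κ h))| ≤ C := hp _ hτ0 le_rfl
  set y := (X n).W h ((X n).c h (κ h)) with hy
  set t := (X n).c h (κ h) with ht
  have hvt : v * t ≤ v * C := mul_le_mul_of_nonneg_left hτ hv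
  have hvt0 : 0 ≤ v * t := mul_nonneg hv hτ0
  have h1 : y ^ 2 ≤ C ^ 2 := by
    rw [← sq_abs y]; exact pow_le_pow_left₀ (abs_nonneg _) hW 2
  have h2 : |y ^ 2 - v * t| ≤ C ^ 2 + v * C := by
    have := sq_nonneg y
    have := sq_nonneg C
    rw [abs_le]
    constructor <;> linarith
  have h3 : |c₁ * y / b| ≤ |c₁| * C / b := by
    rw [abs_div, abs_mul, abs_of_pos hb0]
    gcongr
  have h4 : |c₂ * (y ^ 2 - v * t) / b ^ 2| ≤ |c₂| * (C ^ 2 + v * C) / b ^ 2 := by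
    rw [abs_div, abs_mul, abs_of_pos (pow_pos hb0 2)]
    gcongr
  have h5 := abs_add_le (c₀ + c₁ * y / b) (c₂ * (y ^ 2 - v * t) / b ^ 2)
  have h7 := abs_add_le c₀ (c₁ * y / b)
  have h8 : |O ((X n).W h) b t| ≤ |O ((X n).W h) b t - (c₀ + c₁ * y / b +
      c₂ * (y ^ 2 - v * t) / b ^ 2)| + |c₀ + c₁ * y / b + c₂ * (y ^ 2 - v * t) / b ^ 2| := by
    have h9 := abs_add_le (O ((X n).W h) b t - (c₀ + c₁ * y / b + c₂ * (y ^ 2 - v * t) / b ^ 2))
      (c₀ + c₁ * y / b + c₂ * (y ^ 2 - v * t) / b ^ 2)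
    rwa [sub_add_cancel] at h9
  linarith

theorem closeL_of_closeP {O : (ℝ → ℝ) → ℝ → ℝ → ℝ} {v c₀ c₁ c₂ : ℝ} (hv : 0 ≤ v)
    (hE : Expn O v c₀ c₁ c₂) (hX : AsymB X)
    (hw : ∀ n, ∀ a ∈ (X n).C, 0 < w n a) (hC : CloseP X w O) : CloseL X w O := by
  classical
  intro T R hT hR
  obtain ⟨b₁, h1⟩ := hC T R hT hR
  obtain ⟨b₂, h2⟩ := obs_bdd hv hE hX T R
  refine ⟨max b₁ b₂, fun b hb ε hε => ?_⟩
  obtain ⟨M, hM⟩ := h1 b ((le_max_left _ _).trans hb)
  obtain ⟨M', hM'⟩ := h2 b ((le_max_right _ _).trans hb)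
  set L : ℝ := |M| + |M'| + 1 with hL
  have hL0 : 0 < L := by positivity
  set ε' : ℝ := min (ε / 2) (ε / (2 * L)) with hε'
  have hε'0 : 0 < ε' := by positivity
  obtain ⟨φ, hφ⟩ := hM ε' hε'0
  refine ⟨φ, ?_⟩
  filter_upwards [hφ, hM'] with n hn hn' κ hκ
  obtain ⟨a1, a2⟩ := hn κ hκ
  have a3 := hn' κ hκ
  have hwf := hX.wf n
  set f : A → ℝ := fun h => |cexW (X n) (w n) (φ n) h (κ h) -
    O ((X n).W h) b ((X n).c h (κ h))| with hf
  have key : ∀ h ∈ (X n).C, f h ≤ ε / 2 + L * ({h | ε' < f h}.indicator 1 h : ℝ) := by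
    intro h hh
    by_cases h3 : ε' < f h
    · rw [Set.indicator_of_mem (show h ∈ {h | ε' < f h} from h3), Pi.one_apply, mul_one]
      have h4 : f h ≤ |M| + |M'| := by
        have h5 := abs_sub (cexW (X n) (w n) (φ n) h (κ h)) (O ((X n).W h) b ((X n).c h (κ h)))
        have h6 := a1 h hh
        have h7 := a3 h hh
        have h8 := le_abs_self M
        have h9 := le_abs_self M'
        simp only [hf]
        linarith
      linarith
    · rw [Set.indicator_of_notMem (show h ∉ {h | ε' < f h} from h3), mul_zero, add_zero]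
      push Not at h3
      exact h3.trans (min_le_left _ _)
  have e1 := exW_mono hwf.fin (hw n) key
  rw [exW_add hwf.fin (w n) (fun _ => ε / 2)
    (fun h => L * ({h | ε' < f h}.indicator 1 h : ℝ)), exW_const hwf.fin hwf.ne (hw n),
    exW_smul hwf.fin] at e1
  have e2 : L * ExW (X n).C (w n) (fun h => ({h | ε' < f h}.indicator 1 h : ℝ)) ≤ L * ε' :=
    mul_le_mul_of_nonneg_left a2 hL0.le
  have e3 : L * ε' ≤ ε / 2 := by
    have : ε' ≤ ε / (2 * L) := min_le_right _ _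
    calc L * ε' ≤ L * (ε / (2 * L)) := mul_le_mul_of_nonneg_left this hL0.le
      _ = ε / 2 := by field_simp
  linarith

/-! ### The approximate martingale property -/

/-- The observable of an exploration with close conditional expectations is an approximate
martingale. -/
theorem obsG_of_closeL {O : (ℝ → ℝ) → ℝ → ℝ → ℝ} (hX : AsymB X)
    (hw : ∀ n, ∀ a ∈ (X n).C, 0 < w n a) (hC : CloseL X w O) :
    ObsG (sysX X) O (prW hX w) where
  cont := fun n h => W_cont n h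
  meas := fun n k z => measurable_from_top
  mart := by
    classical
    intro T R hT hR
    obtain ⟨b₁, hb₁⟩ := hC T R hT hR
    refine ⟨b₁, fun b hb => ⟨fun _ => b, tendsto_const_nhds, fun κ κ' Y hκ hκ' hle hY hY1 => ?_⟩⟩
    rw [Metric.tendsto_atTop]
    intro ε hε
    obtain ⟨φ, hφ⟩ := hb₁ b hb (ε / 4) (by positivity)
    have hlt := hX.lt_K (T := T) (R := R)
    obtain ⟨N, hN⟩ := eventually_atTop.1 (hφ.and hlt)
    refine ⟨N, fun n hn => ?_⟩
    obtain ⟨h1, h2⟩ := hN n hn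
    have hwf := hX.wf n
    rw [Real.dist_eq, sub_zero]
    -- extend the stopping indices
    obtain ⟨k1, hk1⟩ : ∃ k1 : A → ℕ, ∀ (h : A) (hh : h ∈ (X n).C), k1 h = κ n ⟨h, hh⟩ :=
      ⟨fun h => if hh : h ∈ (X n).C then κ n ⟨h, hh⟩ else 0, fun h hh => dif_pos hh⟩
    obtain ⟨k2, hk2⟩ : ∃ k2 : A → ℕ, ∀ (h : A) (hh : h ∈ (X n).C), k2 h = κ' n ⟨h, hh⟩ :=
      ⟨fun h => if hh : h ∈ (X n).C then κ' n ⟨h, hh⟩ else 0, fun h hh => dif_pos hh⟩
    obtain ⟨Z, hZ⟩ : ∃ Z : A → ℝ, ∀ (h : A) (hh : h ∈ (X n).C), Z h = Y n ⟨h, hh⟩ :=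
      ⟨fun h => if hh : h ∈ (X n).C then Y n ⟨h, hh⟩ else 0, fun h hh => dif_pos hh⟩
    have s1 : (X n).StopIx k1 := fun h hh h' hh' ha => by
      rw [hk1 h hh] at ha
      rw [hk1 h hh, hk1 h' hh']
      exact Expl.stop_of (hκ n) (h := ⟨h, hh⟩) (h' := ⟨h', hh'⟩) ha
    have s2 : (X n).StopIx k2 := fun h hh h' hh' ha => by
      rw [hk2 h hh] at ha
      rw [hk2 h hh, hk2 h' hh']
      exact Expl.stop_of (hκ'.stop n) (h := ⟨h, hh⟩) (h' := ⟨h', hh'⟩) ha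
    have s3 : (X n).StopMeas k1 Z := fun h hh h' hh' ha => by
      rw [hk1 h hh] at ha
      rw [hZ h hh, hZ h' hh']
      exact Expl.past_of (hκ n) (hY n) (h := ⟨h, hh⟩) (h' := ⟨h', hh'⟩) ha
    have s4 : ∀ h ∈ (X n).C, k1 h ≤ k2 h := fun h hh => by
      rw [hk1 h hh, hk2 h hh]
      exact hle n _
    have s5 : ∀ h ∈ (X n).C, k2 h < (X n).K h := fun h hh => by
      rw [hk2 h hh]
      exact h2 ⟨h, hh⟩ _ (hκ'.bef n ⟨h, hh⟩)
    have s6 : ∀ h ∈ (X n).C, ∀ j < k2 h, (X n).c h j ≤ T ∧ |(X n).V h j| ≤ R := by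
      intro h hh j hj
      have hj2 := hj
      rw [hk2 h hh] at hj
      obtain ⟨h5, h6⟩ := hκ'.bef n ⟨h, hh⟩ j hj
      have hjK : j ≤ (X n).K h := (hj2.trans (s5 h hh)).le
      have e4 : (sysX X).τ n j ⟨h, hh⟩ = (X n).c h j := Expl.tt_le hjK
      have e5 : (sysX X).V n j ⟨h, hh⟩ = (X n).V h j := Expl.W_tt_le hjK
      rw [e4] at h5
      rw [e5] at h6
      exact ⟨h5, h6⟩
    have e0 : ∫ ω, (O ((sysX X).W n ω) b ((sysX X).Ta κ' n ω) -
        O ((sysX X).W n ω) b ((sysX X).Ta κ n ω)) * Y n ω ∂(prW hX w n) =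
        ExW (X n).C (w n) (fun h => (O ((X n).W h) b ((X n).c h (k2 h)) -
          O ((X n).W h) b ((X n).c h (k1 h))) * Z h) := by
      rw [← integral_prW hX hw n]
      refine integral_congr_ae (Eventually.of_forall fun h => ?_)
      have h3 : k2 h = κ' n h := hk2 h h.2
      have h4 : k1 h = κ n h := hk1 h h.2
      have h5 : Z h = Y n h := hZ h h.2
      have h6 : κ' n h < (X n).K h := by rw [← h3]; exact s5 h h.2
      have h7 : κ n h < (X n).K h := lt_of_le_of_lt (hle n h) h6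
      have h8 : (sysX X).Ta κ' n h = (X n).c h (κ' n h) := Expl.tt_le h6.le
      have h9 : (sysX X).Ta κ n h = (X n).c h (κ n h) := Expl.tt_le h7.le
      change (O ((X n).W h) b ((sysX X).Ta κ' n h) - O ((X n).W h) b ((sysX X).Ta κ n h)) * Y n h =
        (O ((X n).W h) b ((X n).c h (k2 h)) - O ((X n).W h) b ((X n).c h (k1 h))) * Z h
      rw [h3, h4, h5, h8, h9]
    rw [e0]
    have e1 := ex_cexW hwf.fin (hw n) s1 s2 s4 s3 (φ n)
    have e2 : ExW (X n).C (w n) (fun h => (O ((X n).W h) b ((X n).c h (k2 h)) -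
          O ((X n).W h) b ((X n).c h (k1 h))) * Z h) =
        ExW (X n).C (w n) (fun h => (O ((X n).W h) b ((X n).c h (k2 h)) -
          O ((X n).W h) b ((X n).c h (k1 h))) * Z h -
          (cexW (X n) (w n) (φ n) h (k2 h) - cexW (X n) (w n) (φ n) h (k1 h)) * Z h) := by
      rw [exW_sub hwf.fin, e1, sub_zero]
    rw [e2]
    refine lt_of_le_of_lt (abs_exW_le' hwf.fin (hw n) _) ?_
    have a1 := h1 k2 ⟨s2, fun h hh => ⟨s5 h hh, s6 h hh⟩⟩
    have a2 := h1 k1 ⟨s1, fun h hh => ⟨(s4 h hh).trans_lt (s5 h hh),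
      fun j hj => s6 h hh j (hj.trans_le (s4 h hh))⟩⟩
    refine lt_of_le_of_lt (exW_mono hwf.fin (hw n) (g := fun h =>
      |cexW (X n) (w n) (φ n) h (k1 h) - O ((X n).W h) b ((X n).c h (k1 h))| +
        |cexW (X n) (w n) (φ n) h (k2 h) - O ((X n).W h) b ((X n).c h (k2 h))|) fun h hh => ?_) ?_
    · have a3 : |Z h| ≤ 1 := by rw [hZ h hh]; exact hY1 n _
      have e3 : (O ((X n).W h) b ((X n).c h (k2 h)) - O ((X n).W h) b ((X n).c h (k1 h))) * Z h -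
          (cexW (X n) (w n) (φ n) h (k2 h) - cexW (X n) (w n) (φ n) h (k1 h)) * Z h =
          ((cexW (X n) (w n) (φ n) h (k1 h) - O ((X n).W h) b ((X n).c h (k1 h))) -
            (cexW (X n) (w n) (φ n) h (k2 h) - O ((X n).W h) b ((X n).c h (k2 h)))) * Z h := by
        ring
      rw [e3, abs_mul]
      exact (mul_le_of_le_one_right (abs_nonneg _) a3).trans (abs_sub _ _)
    · rw [exW_add hwf.fin]
      linarith

/-- **The drivers of the explorations converge in law to `√v B`.** -/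
theorem drv_weakL [MeasurableSpace C(ℝ≥0, ℝ)] [BorelSpace C(ℝ≥0, ℝ)]
    {O : (ℝ → ℝ) → ℝ → ℝ → ℝ} {v c₀ c₁ c₂ : ℝ} (hv : 0 < v) (hE : Expn O v c₀ c₁ c₂)
    (hX : AsymB X) (hw : ∀ n, ∀ a ∈ (X n).C, 0 < w n a) (hC : CloseL X w O) :
    ∃ (lam : Measure C(ℝ≥0, ℝ)) (_ : IsProbabilityMeasure lam),
      IsBrownianReal (fun (t : ℝ≥0) (w : C(ℝ≥0, ℝ)) => w t / √v) lam ∧
      ∀ f : C(ℝ≥0, ℝ) → ℝ, Continuous f → (∃ M, ∀ y, |f y| ≤ M) →
        Tendsto (fun n => ExW (X n).C (w n) fun h => f ((X n).w h)) atTop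
          (𝓝 (∫ y, f y ∂lam)) := by
  have hp : ∀ n, IsProbabilityMeasure (prW hX w n) := prW_prob hX hw
  have hO := obsG_of_closeL hX hw hC
  obtain ⟨lam, hlam, hB, hlim⟩ := weak_limit_k (P := prW hX w) (fun n h => W_cont n h) hv hX.ok
    (hO.am hv.le hE hX.ok)
  refine ⟨lam, hlam, hB, fun f hf hM => ?_⟩
  refine (hlim f hf hM).congr fun n => ?_
  rw [← integral_prW hX hw n]
  refine integral_congr_ae (Eventually.of_forall fun h => ?_)
  change f ((sysX X).path _ n h) = f ((X n).w h)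
  congr 1
  ext t
  change (X n).w h (t : ℝ).toNNReal = _
  rw [Real.toNNReal_coe]

end

end Vale.Agent.P167.QE
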