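import Vale.Agent.P167.H411.FinG

/-!
# P167, general `q`, END: finite explorations with a weighted law

The theorems of `H411/FinG.lean` for laws on the set of outcomes which are proportional to positive
weights.
-/

set_option linter.unusedVariables false
set_option linter.unusedSectionVars false
set_option warn.classDefReducibility false

namespace Vale.Agent.P167.QE

open MeasureTheory ProbabilityTheory Filter Topology Set Complex
open Vale.Agent.P153.M1
open Vale.Agent.P167.H411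
open scoped NNReal ENNReal

/-! ### Weighted averages -/

/-- The weighted average of `F` over the finite set `C`. -/
noncomputable def ExW {α : Type*} (C : Set α) (w F : α → ℝ) : ℝ :=
  (∑ᶠ a ∈ C, w a * F a) / ∑ᶠ a ∈ C, w a

/-- The probability measure with the weights `w`. -/
noncomputable def wms {α : Type*} [Fintype α] [MeasurableSpace α] (w : α → ℝ) : Measure α :=
  ∑ a, ENNReal.ofReal (w a / ∑ b, w b) • Measure.dirac a

theorem wms_prob {α : Type*} [Fintype α] [MeasurableSpace α] [Nonempty α] {w : α → ℝ}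
    (hw : ∀ a, 0 < w a) : IsProbabilityMeasure (wms w) := by
  constructor
  have hs : 0 < ∑ b, w b := Finset.sum_pos (fun a _ => hw a) Finset.univ_nonempty
  rw [wms, Measure.finsetSum_apply]
  simp only [Measure.smul_apply, measure_univ, smul_eq_mul, mul_one]
  rw [← ENNReal.ofReal_sum_of_nonneg fun a _ => div_nonneg (hw a).le hs.le, ← Finset.sum_div,
    div_self hs.ne', ENNReal.ofReal_one]

theorem integral_wms {α : Type*} [Fintype α] [MeasurableSpace α] [DiscreteMeasurableSpace α]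
    {w : α → ℝ} (hw : ∀ a, 0 < w a) (f : α → ℝ) :
    ∫ a, f a ∂(wms w) = (∑ a, w a * f a) / ∑ a, w a := by
  have hs : 0 ≤ ∑ b, w b := Finset.sum_nonneg fun a _ => (hw a).le
  rw [wms, integral_finset_sum_measure]
  · rw [Finset.sum_div]
    refine Finset.sum_congr rfl fun a _ => ?_
    rw [integral_smul_measure, integral_dirac, smul_eq_mul,
      ENNReal.toReal_ofReal (div_nonneg (hw a).le hs)]
    ring
  · intro a _
    exact (integrable_dirac (by simp)).smul_measure ENNReal.ofReal_ne_top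

theorem wms_apply_le {α : Type*} [Fintype α] [MeasurableSpace α] {w : α → ℝ} (s : Set α) :
    wms w s = ∑ a, ENNReal.ofReal (w a / ∑ b, w b) * Measure.dirac a s := by
  rw [wms, Measure.finsetSum_apply]
  simp only [Measure.smul_apply, smul_eq_mul]

/-! ### Conditional expectations along an exploration -/

section

variable {A B : Type*}

/-- The conditional expectation of `φ` given the first `k` steps, for the law with the weights
`w`. -/
noncomputable def cexW (X : Expl A B) (w φ : A → ℝ) (h : A) (k : ℕ) : ℝ := ExW (cyl X h k) w φ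

theorem exW_eq_sum {C : Set A} (hf : C.Finite) (w f : A → ℝ) :
    ExW C w f = (∑ h ∈ hf.toFinset, w h * f h) / ∑ h ∈ hf.toFinset, w h := by
  rw [ExW, finsum_mem_eq_finite_toFinset_sum _ hf, finsum_mem_eq_finite_toFinset_sum _ hf]

theorem cyl_fin {X : Expl A B} (hf : X.C.Finite) (h : A) (k : ℕ) : (cyl X h k).Finite :=
  hf.subset (cyl_sub X h k)

/-- Sum of a conditional expectation times a function of the past. -/
theorem sum_cexW {X : Expl A B} (hf : X.C.Finite) {w : A → ℝ} (hw : ∀ a ∈ X.C, 0 < w a)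
    {κ : A → ℕ} (hκ : X.StopIx κ) {Y : A → ℝ} (hY : X.StopMeas κ Y) (φ : A → ℝ) :
    ∑ h ∈ hf.toFinset, w h * (cexW X w φ h (κ h) * Y h) =
      ∑ h ∈ hf.toFinset, w h * (φ h * Y h) := by
  classical
  have hfc : ∀ h, (cyl X h (κ h)).Finite := fun h => cyl_fin hf h _
  have e3 : ∀ h, (hfc h).toFinset = hf.toFinset.filter (fun a => a ∈ cyl X h (κ h)) := fun h => by
    ext a
    simp only [Finite.mem_toFinset, Finset.mem_filter]
    exact ⟨fun ha => ⟨ha.1, ha⟩, fun ha => ha.2⟩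
  -- write the conditional expectation as a sum over the outcomes
  have e1 : ∀ h ∈ hf.toFinset, w h * (cexW X w φ h (κ h) * Y h) =
      ∑ a ∈ hf.toFinset, if a ∈ cyl X h (κ h) then
        w h * (w a * (φ a * Y a) / ∑ b ∈ (hfc h).toFinset, w b) else 0 := by
    intro h hh
    have hh' : h ∈ X.C := hf.mem_toFinset.1 hh
    rw [← Finset.sum_filter, cexW, exW_eq_sum (hfc h), div_mul_eq_mul_div, Finset.sum_mul,
      Finset.sum_div, Finset.mul_sum, ← e3 h]
    refine Finset.sum_congr rfl fun a ha => ?_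
    have ha' : a ∈ cyl X h (κ h) := (hfc h).mem_toFinset.1 ha
    rw [hY h hh' a ha'.1 ha'.2]
    ring
  rw [Finset.sum_congr rfl e1, Finset.sum_comm]
  refine Finset.sum_congr rfl fun a ha => ?_
  have ha' : a ∈ X.C := hf.mem_toFinset.1 ha
  have e4 : ∀ h ∈ hf.toFinset, (if a ∈ cyl X h (κ h) then
      w h * (w a * (φ a * Y a) / ∑ b ∈ (hfc h).toFinset, w b) else 0) =
      if h ∈ cyl X a (κ a) then
        w h * (w a * (φ a * Y a) / ∑ b ∈ (hfc a).toFinset, w b) else 0 := by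
    intro h hh
    have hh' : h ∈ X.C := hf.mem_toFinset.1 hh
    by_cases h1 : a ∈ cyl X h (κ h)
    · have e5 := cyl_stop hκ hh' h1
      have h2 : h ∈ cyl X a (κ a) := by rw [e5]; exact mem_cyl hh' _
      rw [if_pos h1, if_pos h2]
      congr 3
      ext b
      simp only [Finite.mem_toFinset]
      rw [e5]
    · have h2 : h ∉ cyl X a (κ a) := by
        intro h3
        have e5 := cyl_stop hκ ha' h3
        exact h1 (by rw [e5]; exact mem_cyl ha' _)
      rw [if_neg h1, if_neg h2]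
  rw [Finset.sum_congr rfl e4, ← Finset.sum_filter, ← e3 a, ← Finset.sum_mul]
  have hpos : 0 < ∑ b ∈ (hfc a).toFinset, w b :=
    Finset.sum_pos (fun b hb => hw b ((hfc a).mem_toFinset.1 hb).1)
      ⟨a, (hfc a).mem_toFinset.2 (mem_cyl ha' _)⟩
  field_simp

/-- **Optional stopping for conditional expectations.** -/
theorem ex_cexW {X : Expl A B} (hf : X.C.Finite) {w : A → ℝ} (hw : ∀ a ∈ X.C, 0 < w a)
    {κ κ' : A → ℕ} (hκ : X.StopIx κ) (hκ' : X.StopIx κ') (hle : ∀ h ∈ X.C, κ h ≤ κ' h)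
    {Y : A → ℝ} (hY : X.StopMeas κ Y) (φ : A → ℝ) :
    ExW X.C w (fun h => (cexW X w φ h (κ' h) - cexW X w φ h (κ h)) * Y h) = 0 := by
  have hY' : X.StopMeas κ' Y := fun h hh h' hh' ha =>
    hY h hh h' hh' fun j hj => ha j (hj.trans (hle h hh))
  rw [exW_eq_sum hf]
  have e : ∑ h ∈ hf.toFinset, w h * ((cexW X w φ h (κ' h) - cexW X w φ h (κ h)) * Y h) =
      ∑ h ∈ hf.toFinset, w h * (cexW X w φ h (κ' h) * Y h) -
        ∑ h ∈ hf.toFinset, w h * (cexW X w φ h (κ h) * Y h) := by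
    rw [← Finset.sum_sub_distrib]
    exact Finset.sum_congr rfl fun h _ => by ring
  rw [e, sum_cexW hf hw hκ' hY', sum_cexW hf hw hκ hY, sub_self, zero_div]

theorem exW_sub {C : Set A} (hf : C.Finite) (w f g : A → ℝ) :
    ExW C w (fun h => f h - g h) = ExW C w f - ExW C w g := by
  rw [exW_eq_sum hf, exW_eq_sum hf, exW_eq_sum hf, ← sub_div, ← Finset.sum_sub_distrib]
  congr 1
  exact Finset.sum_congr rfl fun h _ => by ring

theorem abs_exW_le {C : Set A} (hf : C.Finite) (hn : C.Nonempty) {w : A → ℝ}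
    (hw : ∀ a ∈ C, 0 < w a) {f : A → ℝ} {M : ℝ} (h : ∀ a ∈ C, |f a| ≤ M) :
    |ExW C w f| ≤ M := by
  have hpos : 0 < ∑ b ∈ hf.toFinset, w b :=
    Finset.sum_pos (fun b hb => hw b (hf.mem_toFinset.1 hb))
      (by obtain ⟨a, ha⟩ := hn; exact ⟨a, hf.mem_toFinset.2 ha⟩)
  rw [exW_eq_sum hf, abs_div, abs_of_pos hpos, div_le_iff₀ hpos, Finset.mul_sum]
  refine (Finset.abs_sum_le_sum_abs _ _).trans (Finset.sum_le_sum fun a ha => ?_)
  have ha' := hf.mem_toFinset.1 ha
  rw [abs_mul, abs_of_pos (hw a ha'), mul_comm]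
  exact mul_le_mul_of_nonneg_right (h a ha') (hw a ha').le

theorem cexW_congr {X : Expl A B} {w φ ψ : A → ℝ} (h : ∀ a ∈ X.C, φ a = ψ a) (a : A) (k : ℕ) :
    cexW X w φ a k = cexW X w ψ a k := by
  rw [cexW, cexW, ExW, ExW]
  congr 1
  exact finsum_mem_congr rfl fun b hb => by rw [h b hb.1]

theorem cexW_nonneg {X : Expl A B} {w φ : A → ℝ} (hw : ∀ a ∈ X.C, 0 < w a)
    (h : ∀ a ∈ X.C, 0 ≤ φ a) (a : A) (k : ℕ) : 0 ≤ cexW X w φ a k := by
  refine div_nonneg (finsum_nonneg fun b => finsum_nonneg fun hb =>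
    mul_nonneg (hw b hb.1).le (h b hb.1)) (finsum_nonneg fun b => finsum_nonneg fun hb =>
      (hw b hb.1).le)

end

/-! ### The laws on the outcomes -/

section

variable {A B : Type*} {X : ℕ → Expl A B} {w : ℕ → A → ℝ}

/-- The laws. -/
noncomputable def prW (hX : AsymB X) (w : ℕ → A → ℝ) (n : ℕ) : Measure (X n).C :=
  haveI := (hX.wf n).fin.fintype
  wms fun h : (X n).C => w n h

theorem prW_prob (hX : AsymB X) (hw : ∀ n, ∀ a ∈ (X n).C, 0 < w n a) (n : ℕ) :
    IsProbabilityMeasure (prW hX w n) := by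
  let _ := (hX.wf n).fin.fintype
  have _ := (hX.wf n).ne.to_subtype
  exact wms_prob fun a : (X n).C => hw n a a.2

theorem sum_coe_eq {α : Type*} {C : Set α} (hf : C.Finite) (f : α → ℝ) :
    haveI := hf.fintype
    ∑ a : C, f a = ∑ᶠ a ∈ C, f a := by
  let _ := hf.fintype
  rw [← finsum_eq_sum_of_fintype (fun h : C => f h)]
  exact finsum_set_coe_eq_finsum_mem (f := f) C

theorem integral_prW (hX : AsymB X) (hw : ∀ n, ∀ a ∈ (X n).C, 0 < w n a) (n : ℕ) (f : A → ℝ) :
    ∫ h, f h ∂(prW hX w n) = ExW (X n).C (w n) f := by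
  let _ := (hX.wf n).fin.fintype
  have : DiscreteMeasurableSpace (X n).C := ⟨fun _ => trivial⟩
  have h1 : ∫ h, f h ∂(prW hX w n) = (∑ a : (X n).C, w n a * f a) / ∑ a : (X n).C, w n a :=
    integral_wms (w := fun h : (X n).C => w n h) (fun a => hw n a a.2) fun h : (X n).C => f h
  rw [h1, ExW]
  congr 1
  · exact sum_coe_eq (hX.wf n).fin fun a => w n a * f a
  · exact sum_coe_eq (hX.wf n).fin fun a => w n a

/-- **The hypothesis on the observable**: for all large `b` and all `ε > 0` there are functions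
`φ n` of the outcome whose conditional expectations along the exploration are within `ε` of the
observable, as long as the exploration stays in `[0, T] × [-R, R]`. -/
def CloseW (X : ℕ → Expl A B) (w : ℕ → A → ℝ) (O : (ℝ → ℝ) → ℝ → ℝ → ℝ) : Prop :=
  ∀ T R : ℝ, 0 ≤ T → 0 < R → ∃ b₁ : ℝ, ∀ b : ℝ, b₁ ≤ b → ∀ ε : ℝ, 0 < ε →
    ∃ φ : ℕ → A → ℝ, ∀ᶠ n in atTop, ∀ h ∈ (X n).C, ∀ k < (X n).K h,
      (∀ j < k, (X n).c h j ≤ T ∧ |(X n).V h j| ≤ R) →
      |cexW (X n) (w n) (φ n) h k - O ((X n).W h) b ((X n).c h k)| ≤ ε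

/-- The observable of an exploration with close conditional expectations is an approximate
martingale. -/
theorem obsG_of_closeW {O : (ℝ → ℝ) → ℝ → ℝ → ℝ} (hX : AsymB X)
    (hw : ∀ n, ∀ a ∈ (X n).C, 0 < w n a) (hC : CloseW X w O) :
    ObsG (sysX X) O (prW hX w) where
  cont := fun n h => W_cont n h
  meas := fun n k z => measurable_from_top
  mart := by
    classical
    intro T R hT hR
    obtain ⟨b₁, hb₁⟩ := hC T R hT hR
    refine ⟨b₁, fun b hb => ⟨fun _ => b, tendsto_const_nhds, fun κ κ' Y hκ hκ' hle hY hY1 => ?_⟩⟩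
    rw [Metric.tendsto_atTop]
    intro ε hε
    obtain ⟨φ, hφ⟩ := hb₁ b hb (ε / 4) (by positivity)
    have hlt := hX.lt_K (T := T) (R := R)
    obtain ⟨N, hN⟩ := eventually_atTop.1 (hφ.and hlt)
    refine ⟨N, fun n hn => ?_⟩
    obtain ⟨h1, h2⟩ := hN n hn
    have hwf := hX.wf n
    rw [Real.dist_eq, sub_zero]
    -- extend the stopping indices
    obtain ⟨k1, hk1⟩ : ∃ k1 : A → ℕ, ∀ (h : A) (hh : h ∈ (X n).C), k1 h = κ n ⟨h, hh⟩ :=
      ⟨fun h => if hh : h ∈ (X n).C then κ n ⟨h, hh⟩ else 0, fun h hh => dif_pos hh⟩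
    obtain ⟨k2, hk2⟩ : ∃ k2 : A → ℕ, ∀ (h : A) (hh : h ∈ (X n).C), k2 h = κ' n ⟨h, hh⟩ :=
      ⟨fun h => if hh : h ∈ (X n).C then κ' n ⟨h, hh⟩ else 0, fun h hh => dif_pos hh⟩
    obtain ⟨Z, hZ⟩ : ∃ Z : A → ℝ, ∀ (h : A) (hh : h ∈ (X n).C), Z h = Y n ⟨h, hh⟩ :=
      ⟨fun h => if hh : h ∈ (X n).C then Y n ⟨h, hh⟩ else 0, fun h hh => dif_pos hh⟩
    have s1 : (X n).StopIx k1 := fun h hh h' hh' ha => by
      rw [hk1 h hh] at ha
      rw [hk1 h hh, hk1 h' hh']
      exact Expl.stop_of (hκ n) (h := ⟨h, hh⟩) (h' := ⟨h', hh'⟩) ha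
    have s2 : (X n).StopIx k2 := fun h hh h' hh' ha => by
      rw [hk2 h hh] at ha
      rw [hk2 h hh, hk2 h' hh']
      exact Expl.stop_of (hκ'.stop n) (h := ⟨h, hh⟩) (h' := ⟨h', hh'⟩) ha
    have s3 : (X n).StopMeas k1 Z := fun h hh h' hh' ha => by
      rw [hk1 h hh] at ha
      rw [hZ h hh, hZ h' hh']
      exact Expl.past_of (hκ n) (hY n) (h := ⟨h, hh⟩) (h' := ⟨h', hh'⟩) ha
    have s4 : ∀ h ∈ (X n).C, k1 h ≤ k2 h := fun h hh => by
      rw [hk1 h hh, hk2 h hh]
      exact hle n _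
    have s5 : ∀ h ∈ (X n).C, k2 h < (X n).K h := fun h hh => by
      rw [hk2 h hh]
      exact h2 ⟨h, hh⟩ _ (hκ'.bef n ⟨h, hh⟩)
    have s6 : ∀ h ∈ (X n).C, ∀ j < k2 h, (X n).c h j ≤ T ∧ |(X n).V h j| ≤ R := by
      intro h hh j hj
      have hj2 := hj
      rw [hk2 h hh] at hj
      obtain ⟨h5, h6⟩ := hκ'.bef n ⟨h, hh⟩ j hj
      have hjK : j ≤ (X n).K h := (hj2.trans (s5 h hh)).le
      have e4 : (sysX X).τ n j ⟨h, hh⟩ = (X n).c h j := Expl.tt_le hjK
      have e5 : (sysX X).V n j ⟨h, hh⟩ = (X n).V h j := Expl.W_tt_le hjK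
      rw [e4] at h5
      rw [e5] at h6
      exact ⟨h5, h6⟩
    have e0 : ∫ ω, (O ((sysX X).W n ω) b ((sysX X).Ta κ' n ω) -
        O ((sysX X).W n ω) b ((sysX X).Ta κ n ω)) * Y n ω ∂(prW hX w n) =
        ExW (X n).C (w n) (fun h => (O ((X n).W h) b ((X n).c h (k2 h)) -
          O ((X n).W h) b ((X n).c h (k1 h))) * Z h) := by
      rw [← integral_prW hX hw n]
      refine integral_congr_ae (Eventually.of_forall fun h => ?_)
      have h3 : k2 h = κ' n h := hk2 h h.2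
      have h4 : k1 h = κ n h := hk1 h h.2
      have h5 : Z h = Y n h := hZ h h.2
      have h6 : κ' n h < (X n).K h := by rw [← h3]; exact s5 h h.2
      have h7 : κ n h < (X n).K h := lt_of_le_of_lt (hle n h) h6
      have h8 : (sysX X).Ta κ' n h = (X n).c h (κ' n h) := Expl.tt_le h6.le
      have h9 : (sysX X).Ta κ n h = (X n).c h (κ n h) := Expl.tt_le h7.le
      change (O ((X n).W h) b ((sysX X).Ta κ' n h) - O ((X n).W h) b ((sysX X).Ta κ n h)) * Y n h =
        (O ((X n).W h) b ((X n).c h (k2 h)) - O ((X n).W h) b ((X n).c h (k1 h))) * Z h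
      rw [h3, h4, h5, h8, h9]
    rw [e0]
    have e1 := ex_cexW hwf.fin (hw n) s1 s2 s4 s3 (φ n)
    have e2 : ExW (X n).C (w n) (fun h => (O ((X n).W h) b ((X n).c h (k2 h)) -
          O ((X n).W h) b ((X n).c h (k1 h))) * Z h) =
        ExW (X n).C (w n) (fun h => (O ((X n).W h) b ((X n).c h (k2 h)) -
          O ((X n).W h) b ((X n).c h (k1 h))) * Z h -
          (cexW (X n) (w n) (φ n) h (k2 h) - cexW (X n) (w n) (φ n) h (k1 h)) * Z h) := by
      rw [exW_sub hwf.fin, e1, sub_zero]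
    rw [e2]
    refine lt_of_le_of_lt (abs_exW_le hwf.fin hwf.ne (hw n) (M := ε / 2) fun h hh => ?_)
      (by linarith)
    have a1 := h1 h hh (k2 h) (s5 h hh) (s6 h hh)
    have a2 := h1 h hh (k1 h) ((s4 h hh).trans_lt (s5 h hh))
      (fun j hj => s6 h hh j (hj.trans_le (s4 h hh)))
    have a3 : |Z h| ≤ 1 := by rw [hZ h hh]; exact hY1 n _
    have e3 : (O ((X n).W h) b ((X n).c h (k2 h)) - O ((X n).W h) b ((X n).c h (k1 h))) * Z h -
        (cexW (X n) (w n) (φ n) h (k2 h) - cexW (X n) (w n) (φ n) h (k1 h)) * Z h =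
        ((cexW (X n) (w n) (φ n) h (k1 h) - O ((X n).W h) b ((X n).c h (k1 h))) -
          (cexW (X n) (w n) (φ n) h (k2 h) - O ((X n).W h) b ((X n).c h (k2 h)))) * Z h := by ring
    rw [e3, abs_mul]
    refine (mul_le_of_le_one_right (abs_nonneg _) a3).trans ?_
    refine (abs_sub _ _).trans ?_
    linarith

/-- **The drivers of the explorations converge in law to `√v B`.** -/
theorem drv_weakW [MeasurableSpace C(ℝ≥0, ℝ)] [BorelSpace C(ℝ≥0, ℝ)]
    {O : (ℝ → ℝ) → ℝ → ℝ → ℝ} {v c₀ c₁ c₂ : ℝ} (hv : 0 < v) (hE : Expn O v c₀ c₁ c₂)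
    (hX : AsymB X) (hw : ∀ n, ∀ a ∈ (X n).C, 0 < w n a) (hC : CloseW X w O) :
    ∃ (lam : Measure C(ℝ≥0, ℝ)) (_ : IsProbabilityMeasure lam),
      IsBrownianReal (fun (t : ℝ≥0) (w : C(ℝ≥0, ℝ)) => w t / √v) lam ∧
      ∀ f : C(ℝ≥0, ℝ) → ℝ, Continuous f → (∃ M, ∀ y, |f y| ≤ M) →
        Tendsto (fun n => ExW (X n).C (w n) fun h => f ((X n).w h)) atTop
          (𝓝 (∫ y, f y ∂lam)) := by
  have hp : ∀ n, IsProbabilityMeasure (prW hX w n) := prW_prob hX hw
  have hO := obsG_of_closeW hX hw hC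
  obtain ⟨lam, hlam, hB, hlim⟩ := weak_limit_k (P := prW hX w) (fun n h => W_cont n h) hv hX.ok
    (hO.am hv.le hE hX.ok)
  refine ⟨lam, hlam, hB, fun f hf hM => ?_⟩
  refine (hlim f hf hM).congr fun n => ?_
  rw [← integral_prW hX hw n]
  refine integral_congr_ae (Eventually.of_forall fun h => ?_)
  change f ((sysX X).path _ n h) = f ((X n).w h)
  congr 1
  ext t
  change (X n).w h (t : ℝ).toNNReal = _
  rw [Real.toNNReal_coe]

end

end Vale.Agent.P167.QE
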