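import Vale.Agent.P167.QE.Seq
import Vale.Agent.P167.QE.FinL

/-!
# P167, general `q`, END: the proof of `S_seqW` from an observable which is close in `L¹` or in
probability
-/

set_option autoImplicit false
set_option linter.unusedVariables false

open MeasureTheory ProbabilityTheory Filter Topology Set Metric
open scoped NNReal ENNReal

namespace Vale.Agent.P167.QE

open Vale.Agent.P153.R2
open Vale.Agent.P153.R2.DET (Uni HC)
open Vale.Agent.P153.R2.R1 (IsU)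
open Vale.Agent.P153.R2.C1
open Vale.Agent.P153.R2.Final (dom circ toC IsUniformizer)
open Vale.Agent.P153.M1 (Expl)
open Vale.Agent.P167.SLE (SeqHyp Cf bq)
open Vale.Agent.P167.H411 (Expn Set6 exn DC DCs Qc xc_Qc good_ev DCs_bdd fjr_mono
  I_rado6 AsymB)
open Vale.Agent.P167.E6 Vale.Agent.P167.E2

/-- Input: the observable `O` is close to conditional expectations in `L¹` at stopping indices. -/
def I_closeL (wt : Wt) (O : (ℝ → ℝ) → ℝ → ℝ → ℝ) : Prop :=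
  ∀ (Φ : (ℝ × ℝ) ≃ₜ (ℝ × ℝ)) (ψ : ℂ → ℂ)
  (δ : ℕ → ℝ) (N k : ℕ → ℕ) (p : ∀ n, ZMod (N n) → ℤ × ℤ) (S : ℕ → Finset (ℤ × ℤ))
  (ψn : ℕ → ℂ → ℂ), Set6 Φ ψ δ N k p S ψn →
    CloseL (exn δ N k p S ψn) (fun n => wt (N n) (p n) (k n) (S n)) O

/-- Input: bounded conditional expectations, close to the observable `O` in probability at stopping
indices. -/
def I_closeP (wt : Wt) (O : (ℝ → ℝ) → ℝ → ℝ → ℝ) : Prop :=
  ∀ (Φ : (ℝ × ℝ) ≃ₜ (ℝ × ℝ)) (ψ : ℂ → ℂ)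
  (δ : ℕ → ℝ) (N k : ℕ → ℕ) (p : ∀ n, ZMod (N n) → ℤ × ℤ) (S : ℕ → Finset (ℤ × ℤ))
  (ψn : ℕ → ℂ → ℂ), Set6 Φ ψ δ N k p S ψn →
    CloseP (exn δ N k p S ψn) (fun n => wt (N n) (p n) (k n) (S n)) O

/-- The hypothesis on the observable along a shifted sequence. -/
theorem closeL_shift {A B : Type*} {X : ℕ → Expl A B} {w : ℕ → A → ℝ}
    {O : (ℝ → ℝ) → ℝ → ℝ → ℝ} (h : CloseL X w O) (n₀ : ℕ) :
    CloseL (fun n => X (n + n₀)) (fun n => w (n + n₀)) O := by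
  intro T R hT hR
  obtain ⟨b₁, hb⟩ := h T R hT hR
  refine ⟨b₁, fun b hb₁ ε hε => ?_⟩
  obtain ⟨φ, hφ⟩ := hb b hb₁ ε hε
  exact ⟨fun n => φ (n + n₀), (tendsto_add_atTop_nat n₀).eventually hφ⟩

theorem closeP_shift {A B : Type*} {X : ℕ → Expl A B} {w : ℕ → A → ℝ}
    {O : (ℝ → ℝ) → ℝ → ℝ → ℝ} (h : CloseP X w O) (n₀ : ℕ) :
    CloseP (fun n => X (n + n₀)) (fun n => w (n + n₀)) O := by
  intro T R hT hR
  obtain ⟨b₁, hb⟩ := h T R hT hR
  refine ⟨b₁, fun b hb₁ => ?_⟩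
  obtain ⟨M, hM⟩ := hb b hb₁
  refine ⟨M, fun ε hε => ?_⟩
  obtain ⟨φ, hφ⟩ := hM ε hε
  exact ⟨fun n => φ (n + n₀), (tendsto_add_atTop_nat n₀).eventually hφ⟩

/-! ### Along a family of curves -/

section

variable {B : Type*} {S : ℕ → Finset (ℤ × ℤ)} {Q : ℕ → DC (Finset (Sym2 (ℤ × ℤ))) B}
  {ψn : ℕ → ℂ → ℂ} {bn : ℕ → ℂ} {ε : ℕ → ℝ} {ψ : ℂ → ℂ} {b : ℂ}
  {w : ℕ → Finset (Sym2 (ℤ × ℤ)) → ℝ}

/-- **The hypotheses of the curve theorem**, with `nf` (no fjords) instead of `tip`. -/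
theorem seqHypL [MeasurableSpace C(ℝ≥0, ℝ)] [BorelSpace C(ℝ≥0, ℝ)] {κ : ℝ} (hκ : 0 < κ)
    (hw : ∀ n A, 0 < w n A)
    (hQ : ∀ n, (Q n).C = (((edges (S n)).powerset : Finset _) : Set _))
    (H : DCs Q ψn bn ε ψ b) {O : (ℝ → ℝ) → ℝ → ℝ → ℝ} {c₀ c₁ c₂ : ℝ} (hE : Expn O κ c₀ c₁ c₂)
    (hC : CloseL (fun n => (Q n).expl (ψn n)) w O) {R : ℝ}
    (bdd : ∀ (n : ℕ) (a : Cf (S n)) (t : unitInterval), ‖(Q n).xc a.1 t‖ ≤ R)
    (cross : ∀ (y : ℂ) (r : ℝ), 0 < r → ∀ q : ℝ≥0∞, 0 < q → ∃ k : ℕ, ∀ᶠ n in atTop,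
      lawW (S n) (w n) {a : Cf (S n) | Cross ((Q n).xc a.1) y r (3 * r) k} ≤ q)
    (fin : ∀ r : ℝ, 0 < r → ∀ q : ℝ≥0∞, 0 < q → ∃ r' : ℝ, 0 < r' ∧ ∀ᶠ n in atTop,
      lawW (S n) (w n) {a : Cf (S n) | ∃ s t : unitInterval, s ≤ t ∧
        dist ((Q n).xc a.1 s) b < r' ∧ r < dist ((Q n).xc a.1 t) b} ≤ q)
    (nf : ∀ e : ℝ, 0 < e → ∀ r₁ : ℝ, 0 < r₁ → ∀ q : ℝ≥0∞, 0 < q → ∃ ρ : ℝ, 0 < ρ ∧
      ∀ᶠ n in atTop, lawW (S n) (w n) {a : Cf (S n) | S6.FJR (ψn n '' {z | 0 < z.im}) (bn n)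
        ((Q n).xc a.1) ((Q n).T1 a.1) ρ e r₁} ≤ q) :
    ∃ lam : Measure C(ℝ≥0, ℝ), IsDrvK κ lam ∧
      SeqHyp ψn ψ bn b (fun n => 2 * ε n) (fun n => Cf (S n)) (fun n => lawW (S n) (w n))
        (fun n a => (Q n).xc a.1) (fun n a => (Q n).xs (ψn n) a.1)
        (fun n a => (Q n).cs (ψn n) a.1) (fun n a => (Q n).wf (ψn n) a.1)
        (fun n a => (Q n).T0 a.1) (fun n a => (Q n).T1 a.1) lam R := by
  have hpr : ∀ n, IsProbabilityMeasure (lawW (S n) (w n)) := fun n => lawW_prob _ (hw n)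
  obtain ⟨lam, hlam, hB, hlim⟩ := drv_weakL hκ hE H.asymB (fun n a _ => hw n a) hC
  have hmem : ∀ n (a : Cf (S n)), a.1 ∈ (Q n).C := fun n a => by
    rw [hQ n]
    exact a.2
  have hdrv : ∀ f : C(ℝ≥0, ℝ) → ℝ, Continuous f → (∃ M, ∀ y, |f y| ≤ M) →
      Tendsto (fun n => ∫ a : Cf (S n), f ((Q n).wf (ψn n) a.1) ∂(lawW (S n) (w n))) atTop
        (𝓝 (∫ y, f y ∂lam)) := by
    intro f hf hM
    refine (hlim f hf hM).congr fun n => ?_
    change ExW (Q n).C (w n) (fun h => f ((Q n).wf (ψn n) h)) = _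
    rw [hQ n, exW_law _ (hw n)]
  have hdisc : ∀ (n : ℕ) (a : Cf (S n)), UNIQ.Disc (ψn n) (bn n) ((Q n).xc a.1)
      ((Q n).xs (ψn n) a.1) ((Q n).cs (ψn n) a.1) ((Q n).wf (ψn n) a.1) ((Q n).T0 a.1)
      ((Q n).T1 a.1) (2 * ε n) := fun n a => DC.disc (H.wf n) (H.unin n) (hmem n a)
  have htight : ∀ q : ℝ≥0∞, 0 < q → ∃ K : Set C(ℝ≥0, ℝ), IsCompact K ∧
      ∀ᶠ n in atTop, lawW (S n) (w n) {a : Cf (S n) | (Q n).wf (ψn n) a.1 ∉ K} ≤ q := by
    intro q' hq'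
    have h1 := SLE.tight_of_lim (fun n => (lawW (S n) (w n)).map fun a : Cf (S n) =>
      (Q n).wf (ψn n) a.1) (fun n => Measure.isProbabilityMeasure_map
        (Measurable.of_discrete (f := fun a : Cf (S n) =>
          (Q n).wf (ψn n) a.1)).aemeasurable) lam hlam fun f hf hM => by
      refine (hdrv f hf hM).congr fun n => ?_
      exact (integral_map (Measurable.of_discrete (f := fun a : Cf (S n) =>
          (Q n).wf (ψn n) a.1)).aemeasurable hf.aestronglyMeasurable).symm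
    obtain ⟨K, hK, hK'⟩ := isTightMeasureSet_iff_exists_isCompact_measure_compl_le.1 h1 q' hq'
    refine ⟨K, hK, Eventually.of_forall fun n => ?_⟩
    have h2 := hK' _ ⟨n, rfl⟩
    rwa [Measure.map_apply Measurable.of_discrete hK.isClosed.measurableSet.compl] at h2
  refine ⟨lam, hB, ?_⟩
  exact
    { prob := hpr
      problam := hlam
      uni := H.uni
      unif := H.unif
      endp := H.endp
      eps := by simpa using H.eps.const_mul 2
      disc := hdisc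
      drv := hdrv
      bdd := bdd
      cross := cross
      fin := fin
      tip := S6.tip' (fun n => lawW (S n) (w n)) ψn ψ bn b H.uni H.unif H.endp H.unin H.diff
        (fun n (a : Cf (S n)) => (Q n).xc a.1) (fun n a => (Q n).xs (ψn n) a.1)
        (fun n a => (Q n).cs (ψn n) a.1) (fun n a => (Q n).wf (ψn n) a.1)
        (fun n a => (Q n).T0 a.1) (fun n a => (Q n).T1 a.1) (fun n => 2 * ε n) hdisc htight fin
        nf }

end

/-! ### The theorem -/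

/-- **The input of the curve theorem.** -/
theorem s_seqL {κ : ℝ} (hκ : 0 < κ) {wt : Wt} (hwt : WPos wt) (huinj : UNIQ.I_uinj)
    (hrado : I_rado6) {O : (ℝ → ℝ) → ℝ → ℝ → ℝ} {c₀ c₁ c₂ : ℝ} (hE : Expn O κ c₀ c₁ c₂)
    (hclose : I_closeL wt O) (hcross : I_crossW wt) (hfin : I_finW wt) (hnf : I_nfW wt) :
    S_seqW κ wt := by
  intro _ _ Φ ψ hψ δ N k p S hA
  obtain ⟨ψn, H⟩ := hrado Φ ψ hψ δ N k p S hA
  obtain ⟨n₀, hn₀⟩ := eventually_atTop.1 (good_ev H.appr)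
  have hD := H.dcs huinj hn₀
  obtain ⟨R, hR⟩ := DCs_bdd hD
  have hs := tendsto_add_atTop_nat n₀
  have hcl := closeL_shift (hclose Φ ψ δ N k p S ψn H) n₀
  obtain ⟨lam, hlam, hseq⟩ := seqHypL (R := R) (S := fun n => S (n + n₀)) hκ
    (fun n A => hwt _ _ _ _ A) (fun n => rfl) hD hE hcl
    (fun n a t => hR n a.1 a.2 t)
    (by
      intro y r hr q hq
      obtain ⟨m, hm⟩ := hcross Φ δ N k p S hA y r hr q hq
      refine ⟨m, ?_⟩
      filter_upwards [hs.eventually hm] with n h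
      simp only [xc_Qc]
      exact h)
    (by
      intro r hr q hq
      obtain ⟨r', hr', hm⟩ := hfin Φ δ N k p S hA r hr q hq
      refine ⟨r', hr', ?_⟩
      filter_upwards [hs.eventually hm] with n h
      simp only [xc_Qc]
      exact h)
    (by
      intro e he r hr q hq
      obtain ⟨ρ, hρ, hm⟩ := hnf Φ δ N k p S hA e he r hr q hq
      refine ⟨ρ, hρ, ?_⟩
      filter_upwards [hs.eventually hm] with n h
      refine (measure_mono ?_).trans h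
      intro a ha
      have hg := hn₀ (n + n₀) (Nat.le_add_left _ _)
      have ha' := ha
      simp only [mem_ofPred_eq, xc_Qc] at ha'
      rw [(H.isU _ hg).img] at ha'
      refine fjr_mono ?_ ha'
      have hpos : (0 : ℝ) < (nu (p (n + n₀)) (k (n + n₀)) a.1 : ℝ) := by
        exact_mod_cast Nat.succ_pos _
      change ((nu (p (n + n₀)) (k (n + n₀)) a.1 : ℝ) - 1 / 2) /
        (nu (p (n + n₀)) (k (n + n₀)) a.1 : ℝ) ≤ 1
      rw [div_le_one hpos]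
      linarith)
  refine ⟨n₀, _, _, _, _, _, _, _, _, _, lam, R, fun n => 2 * δ (n + n₀), hlam, hseq, ?_, ?_⟩
  · simpa using (hA.2.1.comp hs).const_mul 2
  · intro n a c hc
    obtain ⟨h1, h2, h3, h4, h5⟩ := hA.1 (n + n₀)
    have ha : a.1 ⊆ edges (S (n + n₀)) := Finset.mem_powerset.1 a.2
    refine ⟨OrderIso.refl _, ?_⟩
    rw [H411.reparam_refl, isInterface_unique h4 h5 h3 ha hc, xc_Qc]
    exact dist_crv_Xc h4 h5 h2 h3 ha h1.le

/-- **The input of the curve theorem**, from closeness in probability. -/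
theorem s_seqP {κ : ℝ} (hκ : 0 < κ) {wt : Wt} (hwt : WPos wt) (huinj : UNIQ.I_uinj)
    (hrado : I_rado6) {O : (ℝ → ℝ) → ℝ → ℝ → ℝ} {c₀ c₁ c₂ : ℝ} (hE : Expn O κ c₀ c₁ c₂)
    (hclose : I_closeP wt O) (hcross : I_crossW wt) (hfin : I_finW wt) (hnf : I_nfW wt) :
    S_seqW κ wt := by
  intro _ _ Φ ψ hψ δ N k p S hA
  obtain ⟨ψn, H⟩ := hrado Φ ψ hψ δ N k p S hA
  obtain ⟨n₀, hn₀⟩ := eventually_atTop.1 (good_ev H.appr)
  have hD := H.dcs huinj hn₀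
  obtain ⟨R, hR⟩ := DCs_bdd hD
  have hs := tendsto_add_atTop_nat n₀
  have hcl := closeL_of_closeP hκ.le hE hD.asymB (fun n A _ => hwt _ _ _ _ A)
    (closeP_shift (hclose Φ ψ δ N k p S ψn H) n₀)
  obtain ⟨lam, hlam, hseq⟩ := seqHypL (R := R) (S := fun n => S (n + n₀)) hκ
    (fun n A => hwt _ _ _ _ A) (fun n => rfl) hD hE hcl
    (fun n a t => hR n a.1 a.2 t)
    (by
      intro y r hr q hq
      obtain ⟨m, hm⟩ := hcross Φ δ N k p S hA y r hr q hq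
      refine ⟨m, ?_⟩
      filter_upwards [hs.eventually hm] with n h
      simp only [xc_Qc]
      exact h)
    (by
      intro r hr q hq
      obtain ⟨r', hr', hm⟩ := hfin Φ δ N k p S hA r hr q hq
      refine ⟨r', hr', ?_⟩
      filter_upwards [hs.eventually hm] with n h
      simp only [xc_Qc]
      exact h)
    (by
      intro e he r hr q hq
      obtain ⟨ρ, hρ, hm⟩ := hnf Φ δ N k p S hA e he r hr q hq
      refine ⟨ρ, hρ, ?_⟩
      filter_upwards [hs.eventually hm] with n h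
      refine (measure_mono ?_).trans h
      intro a ha
      have hg := hn₀ (n + n₀) (Nat.le_add_left _ _)
      have ha' := ha
      simp only [mem_ofPred_eq, xc_Qc] at ha'
      rw [(H.isU _ hg).img] at ha'
      refine fjr_mono ?_ ha'
      have hpos : (0 : ℝ) < (nu (p (n + n₀)) (k (n + n₀)) a.1 : ℝ) := by
        exact_mod_cast Nat.succ_pos _
      change ((nu (p (n + n₀)) (k (n + n₀)) a.1 : ℝ) - 1 / 2) /
        (nu (p (n + n₀)) (k (n + n₀)) a.1 : ℝ) ≤ 1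
      rw [div_le_one hpos]
      linarith)
  refine ⟨n₀, _, _, _, _, _, _, _, _, _, lam, R, fun n => 2 * δ (n + n₀), hlam, hseq, ?_, ?_⟩
  · simpa using (hA.2.1.comp hs).const_mul 2
  · intro n a c hc
    obtain ⟨h1, h2, h3, h4, h5⟩ := hA.1 (n + n₀)
    have ha : a.1 ⊆ edges (S (n + n₀)) := Finset.mem_powerset.1 a.2
    refine ⟨OrderIso.refl _, ?_⟩
    rw [H411.reparam_refl, isInterface_unique h4 h5 h3 ha hc, xc_Qc]
    exact dist_crv_Xc h4 h5 h2 h3 ha h1.le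

end Vale.Agent.P167.QE
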