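import Vale.Agent.P167.QE.Main
import Vale.Agent.P167.QE.Expn

/-!
# P167, general `q`, END: `Final.Question q`, `0 < q < 4`, from the inputs for the observable
`((g_t(b) - W_t) / b)^(μ / π)`, `√q = 2 cos μ`
-/

set_option autoImplicit false

namespace Vale.Agent.P167.QE

open Set

/-- The angle `μ`: `√q = 2 cos μ`. -/
noncomputable def muq (q : ℝ) : ℝ := Real.arccos (√q / 2)

theorem cos_muq {q : ℝ} (h4 : q ≤ 4) : 2 * Real.cos (muq q) = √q := by
  have h0 : 0 ≤ √q := Real.sqrt_nonneg q
  have h2 : √q ≤ 2 := by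
    rw [Real.sqrt_le_left (by norm_num)]
    norm_num
    exact h4
  rw [muq, Real.cos_arccos (by linarith) (by linarith)]
  ring

theorem muq_pos {q : ℝ} (h4 : q < 4) : 0 < muq q := by
  rw [muq, Real.arccos_pos]
  have h2 : √q < 2 := by
    rw [Real.sqrt_lt' (by norm_num)]
    norm_num
    exact h4
  linarith

theorem muq_lt {q : ℝ} (h0 : 0 < q) : muq q < Real.pi / 2 := by
  rw [muq, Real.arccos_lt_pi_div_two]
  exact div_pos (Real.sqrt_pos.2 h0) (by norm_num)

/-- `μ ≤ π / 3` for `1 ≤ q`. -/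
theorem muq_le {q : ℝ} (h1 : 1 ≤ q) : muq q ≤ Real.pi / 3 := by
  have h2 : (1 : ℝ) ≤ √q := by rwa [Real.one_le_sqrt]
  have h3 : Real.arccos (1 / 2) = Real.pi / 3 := by
    rw [← Real.cos_pi_div_three]
    exact Real.arccos_cos (by positivity) (by linarith [Real.pi_pos])
  rw [muq, ← h3]
  exact Real.antitone_arccos (by linarith)

/-- `κ = 4 π / (π - μ)`. -/
theorem kappa_eq {q : ℝ} : Final.kappa q = 4 * Real.pi / (Real.pi - muq q) := by
  rw [Final.kappa, muq, neg_div, Real.arccos_neg]

/-- `κ = 4 / (1 - μ / π)`. -/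
theorem kappa_eq' {q : ℝ} (h0 : 0 < q) : Final.kappa q = 4 / (1 - muq q / Real.pi) := by
  have h1 := muq_lt h0
  have hp := Real.pi_pos
  have h2 : Real.pi - muq q ≠ 0 := by linarith
  have h3 : 1 - muq q / Real.pi ≠ 0 := by
    rw [sub_ne_zero]
    intro h
    rw [eq_div_iff hp.ne', one_mul] at h
    linarith
  rw [kappa_eq, div_eq_div_iff h2 h3]
  field_simp

/-- **The question for `0 < q < 4`** from the four inputs for the random-cluster measure, with the
observable `((g_t(b) - W_t) / b)^(μ / π)`. -/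
theorem question_obsQ {q : ℝ} (h0 : 0 < q) (h4 : q < 4)
    (hclose : I_closeW (wq q) (obsQ (muq q / Real.pi))) (hcross : I_crossW (wq q))
    (hfin : I_finW (wq q)) (hnf : I_nfW (wq q)) : Final.Question q := by
  have h1 := muq_lt h0
  have hp := Real.pi_pos
  have he0 : 0 < muq q / Real.pi := div_pos (muq_pos h4) hp
  have he1 : muq q / Real.pi < 1 := by
    rw [div_lt_one hp]
    linarith
  have hE := expn_obsQ he0 he1
  rw [← kappa_eq' h0] at hE
  exact question_of h0 hE hclose hcross hfin hnf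

end Vale.Agent.P167.QE
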