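import Vale.Agent.P167.QE.SeqL
import Vale.Agent.P167.QE.MainQ

/-!
# P167, general `q`, END: `Final.Question q`, `0 < q < 4`, from an observable which is close in `L¹`
(`I_closeL`) or in probability (`I_closeP`) at stopping indices
-/

set_option autoImplicit false

namespace Vale.Agent.P167.QE

open MeasureTheory ProbabilityTheory Filter Topology Set
open Vale.Agent.P167.H411 (Expn)

/-- **The curve theorem** for configurations with positive weights, closeness in `L¹`. -/
theorem curveLimitL_of {κ : ℝ} (hκ : 0 < κ) {wt : Wt} (hwt : WPos wt)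
    {O : (ℝ → ℝ) → ℝ → ℝ → ℝ} {c₀ c₁ c₂ : ℝ} (hE : Expn O κ c₀ c₁ c₂) (hclose : I_closeL wt O)
    (hcross : I_crossW wt) (hfin : I_finW wt) (hnf : I_nfW wt) : CurveLimitW κ wt :=
  curveLimitW hκ hwt Vale.Agent.P153.R2.R1.i_unif Vale.Agent.P153.R2.R1.i_uinj
    (s_seqL hκ hwt Vale.Agent.P153.R2.R1.i_uinj H411.i_rado6 hE hclose hcross hfin hnf)
    H411.s_intf H446.Exap.s_exap

/-- **The curve theorem** for configurations with positive weights, closeness in probability. -/
theorem curveLimitP_of {κ : ℝ} (hκ : 0 < κ) {wt : Wt} (hwt : WPos wt)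
    {O : (ℝ → ℝ) → ℝ → ℝ → ℝ} {c₀ c₁ c₂ : ℝ} (hE : Expn O κ c₀ c₁ c₂) (hclose : I_closeP wt O)
    (hcross : I_crossW wt) (hfin : I_finW wt) (hnf : I_nfW wt) : CurveLimitW κ wt :=
  curveLimitW hκ hwt Vale.Agent.P153.R2.R1.i_unif Vale.Agent.P153.R2.R1.i_uinj
    (s_seqP hκ hwt Vale.Agent.P153.R2.R1.i_uinj H411.i_rado6 hE hclose hcross hfin hnf)
    H411.s_intf H446.Exap.s_exap

theorem expn_q {q : ℝ} (h0 : 0 < q) (h4 : q < 4) :
    ∃ c₀ c₁ c₂ : ℝ, Expn (obsQ (muq q / Real.pi)) (Final.kappa q) c₀ c₁ c₂ := by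
  have h1 := muq_lt h0
  have hp := Real.pi_pos
  have he0 : 0 < muq q / Real.pi := div_pos (muq_pos h4) hp
  have he1 : muq q / Real.pi < 1 := by
    rw [div_lt_one hp]
    linarith
  have hE := expn_obsQ he0 he1
  rw [← kappa_eq' h0] at hE
  exact ⟨_, _, _, hE⟩

/-- **The question for `0 < q < 4`**, closeness in `L¹`. -/
theorem question_obsL {q : ℝ} (h0 : 0 < q) (h4 : q < 4)
    (hclose : I_closeL (wq q) (obsQ (muq q / Real.pi))) (hcross : I_crossW (wq q))
    (hfin : I_finW (wq q)) (hnf : I_nfW (wq q)) : Final.Question q := by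
  obtain ⟨c₀, c₁, c₂, hE⟩ := expn_q h0 h4
  exact question_of_curve h0
    (curveLimitL_of (kappa_pos' h0.le) (wq_pos h0) hE hclose hcross hfin hnf)

/-- **The question for `0 < q < 4`**, closeness in probability. -/
theorem question_obsP {q : ℝ} (h0 : 0 < q) (h4 : q < 4)
    (hclose : I_closeP (wq q) (obsQ (muq q / Real.pi))) (hcross : I_crossW (wq q))
    (hfin : I_finW (wq q)) (hnf : I_nfW (wq q)) : Final.Question q := by
  obtain ⟨c₀, c₁, c₂, hE⟩ := expn_q h0 h4
  exact question_of_curve h0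
    (curveLimitP_of (kappa_pos' h0.le) (wq_pos h0) hE hclose hcross hfin hnf)

end Vale.Agent.P167.QE
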