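import Vale.Agent.P167.SLE.Asm6
import Vale.Agent.P167.QE.FinW

/-!
# P167, general `q`, END: the curve theorem from its inputs, for configurations with arbitrary
positive weights and for `SLE_κ`
-/

set_option linter.unusedVariables false

open MeasureTheory ProbabilityTheory Set Filter Topology Metric
open scoped NNReal ENNReal

namespace Vale.Agent.P167.QE

open Vale.Agent.P153.R2 Vale.Agent.P153.R2.ARCX Vale.Agent.P153.R2.DET Vale.Agent.P153.R2.UNIQ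
open Vale.Agent.P153.R2.C1 Vale.Agent.P167.E6
open Vale.Agent.P153.R2.Final (dom circ toC IsUniformizer)
open Vale.Agent.P164 (IsSLE IsTrace)
open Vale.Agent.P167.SLE (Cf SeqHyp IsLim CapG bq S_intf S_exap uni_of_uniformizer seq_main
  exists_transfer ae_map_of_continuous)

/-! ### The configurations as a probability space -/

/-- Weights of the configurations. -/
abbrev Wt : Type := ∀ n : ℕ, (ZMod n → ℤ × ℤ) → ℕ → Finset (ℤ × ℤ) → Finset (Sym2 (ℤ × ℤ)) → ℝ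

/-- The weights are positive. -/
def WPos (w : Wt) : Prop := ∀ n p k S A, 0 < w n p k S A

/-- The law of the configuration with the weights `w`. -/
noncomputable def lawW (S : Finset (ℤ × ℤ)) (w : Finset (Sym2 (ℤ × ℤ)) → ℝ) : Measure (Cf S) :=
  wms fun A : Cf S => w A.1

instance (S : Finset (ℤ × ℤ)) : Nonempty (Cf S) := ⟨⟨∅, Finset.empty_mem_powerset _⟩⟩

theorem lawW_prob (S : Finset (ℤ × ℤ)) {w : Finset (Sym2 (ℤ × ℤ)) → ℝ} (hw : ∀ A, 0 < w A) :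
    IsProbabilityMeasure (lawW S w) := wms_prob fun A => hw A.1

/-- The expectation for the weights `w`. -/
noncomputable def meanW (S : Finset (ℤ × ℤ)) (w F : Finset (Sym2 (ℤ × ℤ)) → ℝ) : ℝ :=
  (∑ A ∈ (edges S).powerset, w A * F A) / ∑ A ∈ (edges S).powerset, w A

theorem meanW_eq (S : Finset (ℤ × ℤ)) {w : Finset (Sym2 (ℤ × ℤ)) → ℝ} (hw : ∀ A, 0 < w A)
    (F : Finset (Sym2 (ℤ × ℤ)) → ℝ) : meanW S w F = ∫ A : Cf S, F A.1 ∂(lawW S w) := by
  rw [lawW, integral_wms fun A : Cf S => hw A.1, meanW]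
  have h : ∀ G : Finset (Sym2 (ℤ × ℤ)) → ℝ,
      ∑ A : Cf S, G A.1 = ∑ A ∈ (edges S).powerset, G A := fun G =>
    Finset.sum_coe_sort ((edges S).powerset) G
  rw [h fun A => w A * F A, h w]

/-! ### Inputs -/

/-- the law of the driver of `SLE_κ` -/
def IsDrvK [MeasurableSpace C(ℝ≥0, ℝ)] (κ : ℝ) (lam : Measure C(ℝ≥0, ℝ)) : Prop :=
  IsBrownianReal (fun (t : ℝ≥0) (w : C(ℝ≥0, ℝ)) => w t / √κ) lam

/-- The input from the lattice side: for every approximation of a marked Jordan domain there are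
(from some index `n₀` on) simple curves `X`, close to the interfaces, with the properties
`SeqHyp`. -/
def S_seqW (κ : ℝ) (wt : Wt) : Prop := ∀ [MeasurableSpace C(ℝ≥0, ℝ)] [BorelSpace C(ℝ≥0, ℝ)]
  (Φ : (ℝ × ℝ) ≃ₜ (ℝ × ℝ)) (ψ : ℂ → ℂ), IsUniformizer Φ ψ →
  ∀ (δ : ℕ → ℝ) (N k : ℕ → ℕ) (p : ∀ n, ZMod (N n) → ℤ × ℤ) (S : ℕ → Finset (ℤ × ℤ)),
    Approx Φ δ N k p S →
    ∃ (n₀ : ℕ) (ψn : ℕ → ℂ → ℂ) (bn : ℕ → ℂ) (ε : ℕ → ℝ)
      (X : ∀ n, Cf (S (n + n₀)) → C(unitInterval, ℂ))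
      (xs : ∀ n, Cf (S (n + n₀)) → ℝ → ℂ) (cs : ∀ n, Cf (S (n + n₀)) → ℝ → ℝ)
      (w : ∀ n, Cf (S (n + n₀)) → C(ℝ≥0, ℝ)) (T0 T1 : ∀ n, Cf (S (n + n₀)) → ℝ)
      (lam : Measure C(ℝ≥0, ℝ)) (R : ℝ) (e : ℕ → ℝ), IsDrvK κ lam ∧
      SeqHyp ψn ψ bn (bq Φ) ε (fun n => Cf (S (n + n₀)))
        (fun n => lawW (S (n + n₀)) (wt _ (p (n + n₀)) (k (n + n₀)) (S (n + n₀)))) X xs cs w
        T0 T1 lam R ∧
      Tendsto e atTop (𝓝 0) ∧
      ∀ (n : ℕ) (A : Cf (S (n + n₀))) (c : C(unitInterval, ℂ)),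
        IsInterface (p (n + n₀)) (k (n + n₀)) (δ (n + n₀)) A.1 c →
        ∃ φ : unitInterval ≃o unitInterval, dist (reparam c φ) (X n A) ≤ e n

/-- Convergence of the interfaces to `SLE_κ`, for configurations with the weights `wt`. -/
def CurveLimitW (κ : ℝ) (wt : Wt) : Prop :=
  ∃ (Ω : Type) (_ : MeasurableSpace Ω) (P : Measure Ω) (_ : IsProbabilityMeasure P)
    (γ : Ω → ℝ → ℂ), IsSLE κ P γ ∧
    ∀ Φ : (ℝ × ℝ) ≃ₜ (ℝ × ℝ), (∃ ψ, IsUniformizer Φ ψ) ∧ ∀ ψ, IsUniformizer Φ ψ →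
      ∃ G : Ω → C(unitInterval, ℂ),
        (∀ᵐ ω ∂P, G ω 1 = toC (Φ (circ Real.pi)) ∧
          ∀ t : unitInterval, (t : ℝ) < 1 → G ω t = ψ (γ ω (t / (1 - t)))) ∧
        (∀ F : C(unitInterval, ℂ) → ℝ, Continuous F → AEMeasurable (fun ω => F (G ω)) P) ∧
        ∀ (δ : ℕ → ℝ) (N k : ℕ → ℕ) (p : ∀ n, ZMod (N n) → ℤ × ℤ)
          (S : ℕ → Finset (ℤ × ℤ)), Approx Φ δ N k p S →
          (∀ n, ∀ A ⊆ edges (S n), ∃ c, IsInterface (p n) (k n) (δ n) A c) ∧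
          ∀ c : ∀ n, Finset (Sym2 (ℤ × ℤ)) → C(unitInterval, ℂ),
            (∀ n, ∀ A ⊆ edges (S n), IsInterface (p n) (k n) (δ n) A (c n A)) →
            ∀ F : C(unitInterval, ℂ) → ℝ, Continuous F → (∃ M, ∀ x, |F x| ≤ M) →
              (∀ (x : C(unitInterval, ℂ)) (σ : C(unitInterval, unitInterval)), StrictMono σ →
                Function.Surjective σ → F (x.comp σ) = F x) →
              Tendsto (fun n => meanW (S n) (wt _ (p n) (k n) (S n)) fun A => F (c n A)) atTop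
                (𝓝 (∫ ω, F (G ω) ∂P))

/-! ### The law of the driver is unique -/

section Law

variable [MeasurableSpace C(ℝ≥0, ℝ)] [BorelSpace C(ℝ≥0, ℝ)] {κ : ℝ}

theorem fddK (hκ : 0 < κ) {lam : Measure C(ℝ≥0, ℝ)} (h : IsDrvK κ lam) (I : Finset ℝ≥0) :
    lam.map (fun f => I.restrict (fun t => f t)) =
      (BrownianReal.projectiveFamily I).map (fun x => fun i => √κ * x i) := by
  have hne : √κ ≠ 0 := (Real.sqrt_pos.2 hκ).ne'
  have h1 := (h.hasLaw I).map_eq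
  rw [← h1]
  have hm2 : Measurable fun (x : C(ℝ≥0, ℝ)) => I.restrict (fun t => x t / √κ) :=
    measurable_pi_lambda _ fun t =>
      ((continuous_eval_const (t : ℝ≥0)).measurable).div_const _
  rw [Measure.map_map (by fun_prop) hm2]
  congr 1
  funext x
  funext i
  simp only [Function.comp_apply, Finset.restrict]
  rw [mul_div_cancel₀ _ hne]

theorem drvK_unique (hκ : 0 < κ) {lam lam' : Measure C(ℝ≥0, ℝ)} (h : IsDrvK κ lam)
    (h' : IsDrvK κ lam') : lam = lam' := by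
  have : IsProbabilityMeasure lam := h.isGaussianProcess.isProbabilityMeasure
  have : IsProbabilityMeasure lam' := h'.isGaussianProcess.isProbabilityMeasure
  exact Vale.Agent.P153.M1.path_ext fun I => by rw [fddK hκ h, fddK hκ h']

end Law

/-- **The assembly of the curve theorem.** -/
theorem curveLimitW {κ : ℝ} (hκ : 0 < κ) {wt : Wt} (hwt : WPos wt) (hunif : I_unif)
    (huinj : I_uinj) (hseq : S_seqW κ wt) (hintf : S_intf) (hexap : S_exap) :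
    CurveLimitW κ wt := by
  classical
  have hκne : √κ ≠ 0 := (Real.sqrt_pos.2 hκ).ne'
  let _ : MeasurableSpace C(ℝ≥0, ℝ) := borel _
  have _ : BorelSpace C(ℝ≥0, ℝ) := ⟨rfl⟩
  let _ : MeasurableSpace C(unitInterval, ℂ) := borel _
  have _ : BorelSpace C(unitInterval, ℂ) := ⟨rfl⟩
  -- the interfaces exist
  have hint : ∀ (Φ : (ℝ × ℝ) ≃ₜ (ℝ × ℝ)) (δ : ℕ → ℝ) (N k : ℕ → ℕ)
      (p : ∀ n, ZMod (N n) → ℤ × ℤ) (S : ℕ → Finset (ℤ × ℤ)), Approx Φ δ N k p S →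
      ∀ n, ∀ A ⊆ edges (S n), ∃ c, IsInterface (p n) (k n) (δ n) A c := by
    intro Φ δ N k p S hA n A hAS
    obtain ⟨h1, h2, h3, h4, h5⟩ := hA.1 n
    exact hintf (N n) (k n) (p n) (S n) (δ n) h1 h2 h3 h4 h5 A hAS
  -- convergence in all domains
  have hconv : ∀ (Φ : (ℝ × ℝ) ≃ₜ (ℝ × ℝ)) (ψ : ℂ → ℂ), IsUniformizer Φ ψ →
      ∀ (δ : ℕ → ℝ) (N k : ℕ → ℕ) (p : ∀ n, ZMod (N n) → ℤ × ℤ) (S : ℕ → Finset (ℤ × ℤ)),
        Approx Φ δ N k p S → ∀ c : ∀ n, Finset (Sym2 (ℤ × ℤ)) → C(unitInterval, ℂ),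
        (∀ n, ∀ A ⊆ edges (S n), IsInterface (p n) (k n) (δ n) A (c n A)) →
        ∃ (lam : Measure C(ℝ≥0, ℝ)) (ν : Measure (C(ℝ≥0, ℝ) × C(unitInterval, ℂ))),
          IsDrvK κ lam ∧ IsLim ψ (bq Φ) lam ν ∧
          ∀ F : C(unitInterval, ℂ) → ℝ, Continuous F → (∃ M, ∀ x, |F x| ≤ M) →
            (∀ (x : C(unitInterval, ℂ)) (σ : unitInterval ≃o unitInterval),
              F (reparam x σ) = F x) →
            Tendsto (fun n => meanW (S n) (wt _ (p n) (k n) (S n)) fun A => F (c n A)) atTop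
              (𝓝 (∫ q, F q.2 ∂ν)) := by
    intro Φ ψ hψ δ N k p S hA c hc
    obtain ⟨n₀, ψn, bn, ε, X, xs, cs, w, T0, T1, lam, R, e, hlam, hS, he, hclose⟩ :=
      hseq Φ ψ hψ δ N k p S hA
    obtain ⟨ν, hν, hF⟩ := seq_main hS (fun n (A : Cf (S (n + n₀))) => c (n + n₀) A.1) e he
      (fun n A => hclose n A (c (n + n₀) A.1) (hc (n + n₀) A.1 (Finset.mem_powerset.1 A.2)))
    refine ⟨lam, ν, hlam, hν, fun F hFc hM hinv => ?_⟩
    rw [← tendsto_add_atTop_iff_nat n₀]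
    refine (hF F hFc hM hinv).congr fun n => ?_
    exact (meanW_eq (S (n + n₀)) (fun A => hwt _ _ _ _ A) fun A => F (c (n + n₀) A)).symm
  -- the reference domain
  obtain ⟨Φ0, δ0, N0, k0, p0, S0, hA0⟩ := hexap
  obtain ⟨ψ0, hψ0⟩ := hunif Φ0
  have hc0 : ∀ n (A : Finset (Sym2 (ℤ × ℤ))), ∃ c : C(unitInterval, ℂ), A ⊆ edges (S0 n) →
      IsInterface (p0 n) (k0 n) (δ0 n) A c := by
    intro n A
    by_cases h : A ⊆ edges (S0 n)
    · obtain ⟨c, hc⟩ := hint Φ0 δ0 N0 k0 p0 S0 hA0 n A h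
      exact ⟨c, fun _ => hc⟩
    · exact ⟨0, fun h' => absurd h' h⟩
  choose c0 hc0 using hc0
  obtain ⟨lam, ν0, hlam, hν0, -⟩ := hconv Φ0 ψ0 hψ0 δ0 N0 k0 p0 S0 hA0 c0 hc0
  have hU0 := uni_of_uniformizer huinj hψ0
  have hνp := hν0.prob
  -- the trace
  set γ : C(ℝ≥0, ℝ) × C(unitInterval, ℂ) → ℝ → ℂ := fun q =>
    if h : CapG ψ0 (bq Φ0) q.1 q.2 then h.choose else 0 with hγ
  have hγs : ∀ᵐ q ∂ν0, IsTrace (fun t => q.1 t.toNNReal) (γ q) ∧ q.2 1 = bq Φ0 ∧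
      ∀ t : unitInterval, (t : ℝ) < 1 → q.2 t = ψ0 (γ q (t / (1 - t))) := by
    filter_upwards [hν0.cap] with q hq
    simp only [hγ, dif_pos hq]
    exact hq.choose_spec
  refine ⟨C(ℝ≥0, ℝ) × C(unitInterval, ℂ), inferInstance, ν0, hνp, γ, ?_, ?_⟩
  · refine ⟨fun t q => q.1 t / √κ, ?_, ?_⟩
    · have h1 : MeasurePreserving (Prod.fst : C(ℝ≥0, ℝ) × C(unitInterval, ℂ) → C(ℝ≥0, ℝ)) ν0
          lam := ⟨measurable_fst, hν0.fst⟩
      refine ⟨⟨fun I => ?_⟩, ae_of_all _ fun q => q.1.continuous.div_const _⟩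
      exact (hlam.hasLaw I).comp h1.hasLaw
    · filter_upwards [hγs] with q hq
      have h1 : (fun t : ℝ => √κ * (q.1 t.toNNReal / √κ)) = fun t => q.1 t.toNNReal := by
        funext t
        rw [mul_div_cancel₀ _ hκne]
      rw [h1]
      exact hq.1
  · intro Φ
    refine ⟨hunif Φ, fun ψ hψ => ?_⟩
    have hU := uni_of_uniformizer huinj hψ
    obtain ⟨f, hfb, hfψ⟩ := exists_transfer hU0 hU
    have hfc : Continuous fun x : C(unitInterval, ℂ) => f.comp x :=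
      ContinuousMap.continuous_postcomp f
    have hG : ∀ᵐ q ∂ν0, f.comp q.2 1 = bq Φ ∧
        ∀ t : unitInterval, (t : ℝ) < 1 → f.comp q.2 t = ψ (γ q (t / (1 - t))) := by
      filter_upwards [hγs] with q hq
      refine ⟨?_, fun t ht => ?_⟩
      · rw [ContinuousMap.comp_apply, hq.2.1, hfb]
      · have h3 : (0 : ℝ) ≤ t / (1 - t) := div_nonneg t.2.1 (by linarith)
        rw [ContinuousMap.comp_apply, hq.2.2 t ht, hfψ _ (hq.1.im_nonneg _ h3)]
    refine ⟨fun q => f.comp q.2, hG, ?_, ?_⟩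
    · intro F hF
      exact ((hF.comp hfc).measurable.comp measurable_snd).aemeasurable
    · intro δ N k p S hA
      refine ⟨hint Φ δ N k p S hA, fun c hc F hF hM hinv => ?_⟩
      obtain ⟨lam', ν, hlam', hν, hlim⟩ := hconv Φ ψ hψ δ N k p S hA c hc
      have h1 := hlim F hF hM fun x σ => hinv x ⟨σ, σ.continuous⟩ σ.strictMono σ.surjective
      have hπ : Measurable fun q : C(ℝ≥0, ℝ) × C(unitInterval, ℂ) => (q.1, f.comp q.2) :=
        measurable_fst.prodMk (hfc.measurable.comp measurable_snd)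
      have hπc : Continuous fun q : C(ℝ≥0, ℝ) × C(unitInterval, ℂ) => (q.1, f.comp q.2) :=
        continuous_fst.prodMk (hfc.comp continuous_snd)
      have h2 : IsLim ψ (bq Φ) lam' (ν0.map fun q => (q.1, f.comp q.2)) := by
        refine ⟨Measure.isProbabilityMeasure_map hπ.aemeasurable, ?_, ?_⟩
        · rw [Measure.map_map measurable_fst hπ, drvK_unique hκ hlam' hlam, ← hν0.fst]
          rfl
        · refine ae_map_of_continuous ν0 hπc (p := fun q : C(ℝ≥0, ℝ) × C(unitInterval, ℂ) =>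
            CapG ψ (bq Φ) q.1 q.2) ?_
          filter_upwards [hγs, hG] with q hq1 hq2
          exact ⟨γ q, hq1.1, hq2.1, hq2.2⟩
      rw [hν.unique h2] at h1
      have h3 : ∫ q, F q.2 ∂(ν0.map fun q => (q.1, f.comp q.2)) = ∫ q, F (f.comp q.2) ∂ν0 :=
        integral_map (f := fun q : C(ℝ≥0, ℝ) × C(unitInterval, ℂ) => F q.2) hπ.aemeasurable
          (hF.comp continuous_snd).aestronglyMeasurable
      rw [h3] at h1
      exact h1

end Vale.Agent.P167.QE
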