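import Vale.Agent.P167.QE.On

/-!
# P167, general `q`: the class of the approximations which are flat near the target `b`
-/

set_option autoImplicit false

namespace Vale.Agent.P167.QE

open Filter Topology Set
open Vale.Agent.P167.E6 (dir face)

/-- The faces on the left of the lattice line through the vertex `v` in the direction `dir i`
(`face v i` is the face on the left of the edge from `v` to `v + dir i`). -/
def LeftOf (v : ℤ × ℤ) (i : Fin 4) : Set (ℤ × ℤ) :=
  {f | ∃ (a : ℤ) (b : ℕ), f = face v i + a • dir i + (b : ℤ) • dir (i + 1)}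

/-- The approximation is flat near the target `b`: there are a radius `r > 0` and a direction `i`
such that, from some index on, inside the square of radius `r` around the marked vertex
`b n = p n (k n)` the domain is the half plane on the left of the lattice line through `b n` in the
direction `dir i`. -/
def FlatB : Cls := fun _ δ N k p S => ∃ (r : ℝ) (i : Fin 4), 0 < r ∧ ∀ᶠ n in atTop,
  p n (k n) = p n ((k n : ZMod (N n)) - 1) + dir i ∧
  ∀ f : ℤ × ℤ, δ n * |((f.1 - (p n (k n)).1 : ℤ) : ℝ)| ≤ r →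
    δ n * |((f.2 - (p n (k n)).2 : ℤ) : ℝ)| ≤ r → (f ∈ S n ↔ f ∈ LeftOf (p n (k n)) i)

/-- The faces on the left of a vertical line directed to the south. -/
theorem mem_leftOf_three {v f : ℤ × ℤ} : f ∈ LeftOf v 3 ↔ v.1 ≤ f.1 := by
  constructor
  · rintro ⟨a, b, rfl⟩
    simp [dir, face]
  · intro h
    refine ⟨v.2 - 1 - f.2, (f.1 - v.1).toNat, ?_⟩
    rw [Int.toNat_of_nonneg (by omega)]
    ext
    · simp [dir, face]
    · simp [dir, face]
      ring

/-- The square `(-1,1)²` marked at `(1,0)` and `(-1,0)` with its approximations by the lattice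
squares is in the class. -/
theorem flatB_ne : Cls.Ne FlatB := by
  refine ⟨_, _, _, _, _, _, H446.Exap.approx, 1 / 2, 3, by norm_num, ?_⟩
  filter_upwards with n
  have hm : 0 < n + 1 := by omega
  have hz : (0 : ℤ) < ((n + 1 : ℕ) : ℤ) := by exact_mod_cast hm
  have hk : Vale.Agent.P153.R2.EXAP.p (n + 1) ((4 * (n + 1) : ℕ) : ZMod (8 * (n + 1))) =
      (-((n + 1 : ℕ) : ℤ), 0) := by
    rw [Vale.Agent.P153.R2.EXAP.p_cast (by omega)]
    have := Vale.Agent.P153.R2.EXAP.q_half hz
    push_cast at this ⊢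
    exact this
  have hk1 : Vale.Agent.P153.R2.EXAP.p (n + 1)
      (((4 * (n + 1) : ℕ) : ZMod (8 * (n + 1))) - 1) = (-((n + 1 : ℕ) : ℤ), 1) := by
    have e : ((4 * (n + 1) : ℕ) : ZMod (8 * (n + 1))) - 1 =
        ((4 * (n + 1) - 1 : ℕ) : ZMod (8 * (n + 1))) := by
      rw [Nat.cast_sub (by omega), Nat.cast_one]
    rw [e, Vale.Agent.P153.R2.EXAP.p_cast (by omega)]
    have e1 : (((4 * (n + 1) - 1 : ℕ) : ℤ)) = 4 * ((n + 1 : ℕ) : ℤ) - 1 := by omega
    rw [e1]
    unfold Vale.Agent.P153.R2.EXAP.q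
    split_ifs
    · exfalso
      omega
    · refine Prod.ext ?_ ?_ <;> simp only <;> omega
    · refine Prod.ext ?_ ?_ <;> simp only <;> omega
    · exfalso
      omega
    · exfalso
      omega
  constructor
  · rw [hk, hk1]
    simp [dir]
  · intro f h1 h2
    rw [hk] at h1 h2 ⊢
    rw [mem_leftOf_three]
    have hn : (0 : ℝ) < ((n + 1 : ℕ) : ℝ) := by exact_mod_cast hm
    have h3 : ∀ x : ℤ, 1 / (((n + 1 : ℕ) : ℝ)) * |(x : ℝ)| ≤ 1 / 2 →
        2 * |x| ≤ ((n + 1 : ℕ) : ℤ) := by
      intro x hx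
      rw [one_div_mul_eq_div, div_le_iff₀ hn] at hx
      have : (2 : ℝ) * |(x : ℝ)| ≤ ((n + 1 : ℕ) : ℝ) := by linarith
      have h4 : ((2 * |x| : ℤ) : ℝ) ≤ (((n + 1 : ℕ) : ℤ) : ℝ) := by
        push_cast at this ⊢
        exact this
      exact_mod_cast h4
    have h4 := h3 _ h1
    have h5 := h3 _ h2
    simp only at h4 h5
    obtain ⟨x, y⟩ := f
    change (x, y) ∈ H446.Exap.sq (n + 1) ↔ _
    rw [H446.Exap.mem_sq]
    simp only at h4 h5 ⊢
    have h6 := abs_le.1 (show |x - -((n + 1 : ℕ) : ℤ)| ≤ ((n + 1 : ℕ) : ℤ) by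
      have := abs_nonneg (x - -((n + 1 : ℕ) : ℤ))
      omega)
    have h7 := abs_nonneg (x - -((n + 1 : ℕ) : ℤ))
    have h8 := le_abs_self (x - -((n + 1 : ℕ) : ℤ))
    have h9 := le_abs_self (y - 0)
    have h10 := neg_abs_le (y - 0)
    constructor
    · rintro ⟨⟨h, -⟩, -⟩
      exact h
    · intro h
      refine ⟨⟨h, by omega⟩, by omega, by omega⟩

end Vale.Agent.P167.QE
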