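import Vale.Agent.P167.H411.Inputs6
import Vale.Agent.P167.QE.Asm

/-!
# P167, general `q`, END: the inputs

The analogues of the inputs of `H411/Inputs6.lean` for the law of the configurations with the
weights `wt`. (The input `I_rado6`, uniformizers of the lattice domains, does not depend on the law,
it is the theorem `i_rado6`.)
-/

set_option autoImplicit false
set_option linter.unusedVariables false

open MeasureTheory ProbabilityTheory Filter Topology Set Metric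
open scoped NNReal ENNReal

namespace Vale.Agent.P167.QE

open Vale.Agent.P153.R2
open Vale.Agent.P153.R2.C1
open Vale.Agent.P167.SLE (Cf bq)
open Vale.Agent.P167.H411 (Set6 exn)
open Vale.Agent.P167.E6 Vale.Agent.P167.E2

/-- The law of the configurations in the polygon `p` with the wired vertices `p k, …, p (n - 1)`. -/
noncomputable abbrev lwt (wt : Wt) {n : ℕ} (p : ZMod n → ℤ × ℤ) (k : ℕ) (S : Finset (ℤ × ℤ)) :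
    Measure (Cf S) := lawW S (wt n p k S)

/-- Input: the observable `O` is close to conditional expectations. -/
def I_closeW (wt : Wt) (O : (ℝ → ℝ) → ℝ → ℝ → ℝ) : Prop :=
  ∀ (Φ : (ℝ × ℝ) ≃ₜ (ℝ × ℝ)) (ψ : ℂ → ℂ)
  (δ : ℕ → ℝ) (N k : ℕ → ℕ) (p : ∀ n, ZMod (N n) → ℤ × ℤ) (S : ℕ → Finset (ℤ × ℤ))
  (ψn : ℕ → ℂ → ℂ), Set6 Φ ψ δ N k p S ψn →
    CloseW (exn δ N k p S ψn) (fun n => wt (N n) (p n) (k n) (S n)) O

/-- Input: the crossing numbers of fixed annuli are tight. -/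
def I_crossW (wt : Wt) : Prop := ∀ (Φ : (ℝ × ℝ) ≃ₜ (ℝ × ℝ)) (δ : ℕ → ℝ) (N k : ℕ → ℕ)
  (p : ∀ n, ZMod (N n) → ℤ × ℤ) (S : ℕ → Finset (ℤ × ℤ)), Approx Φ δ N k p S →
  ∀ (y : ℂ) (r : ℝ), 0 < r → ∀ q : ℝ≥0∞, 0 < q → ∃ m : ℕ, ∀ᶠ n in atTop,
    lwt wt (p n) (k n) (S n) {a : Cf (S n) | Cross (Xc (p n) (k n) (δ n) a.1) y r (3 * r) m} ≤ q

/-- Input: no return from `b`. -/
def I_finW (wt : Wt) : Prop := ∀ (Φ : (ℝ × ℝ) ≃ₜ (ℝ × ℝ)) (δ : ℕ → ℝ) (N k : ℕ → ℕ)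
  (p : ∀ n, ZMod (N n) → ℤ × ℤ) (S : ℕ → Finset (ℤ × ℤ)), Approx Φ δ N k p S →
  ∀ r : ℝ, 0 < r → ∀ q : ℝ≥0∞, 0 < q → ∃ r' : ℝ, 0 < r' ∧ ∀ᶠ n in atTop,
    lwt wt (p n) (k n) (S n) {a : Cf (S n) | ∃ s t : unitInterval, s ≤ t ∧
      dist (Xc (p n) (k n) (δ n) a.1 s) (bq Φ) < r' ∧
      r < dist (Xc (p n) (k n) (δ n) a.1 t) (bq Φ)} ≤ q

/-- Input: no fjords. -/
def I_nfW (wt : Wt) : Prop := ∀ (Φ : (ℝ × ℝ) ≃ₜ (ℝ × ℝ)) (δ : ℕ → ℝ) (N k : ℕ → ℕ)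
  (p : ∀ n, ZMod (N n) → ℤ × ℤ) (S : ℕ → Finset (ℤ × ℤ)), Approx Φ δ N k p S →
  ∀ e : ℝ, 0 < e → ∀ r₁ : ℝ, 0 < r₁ → ∀ q : ℝ≥0∞, 0 < q → ∃ ρ : ℝ, 0 < ρ ∧ ∀ᶠ n in atTop,
    lwt wt (p n) (k n) (S n) {a : Cf (S n) | S6.FJR (Om (δ n) (S n)) (bM (p n) (k n) (δ n))
      (Xc (p n) (k n) (δ n) a.1) 1 ρ e r₁} ≤ q

end Vale.Agent.P167.QE
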